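import Mathlib

/-!
# P249: the upper Khinchin inequality for Rademacher sums on the cube `Fin K → Bool`

For real coefficients `c` with `∑ c i ^ 2 ≤ A`, `A > 0`, and `p > 0`:
`∑_ε |∑ i, c i * sg (ε i)| ^ p ≤ 2 * 2 ^ K * (p * A / e) ^ (p / 2)`.
-/

namespace Vale.Agent.Lib.P249.H59

open Finset

/-- The sign of a bit. -/
def sg (b : Bool) : ℝ := if b then -1 else 1

theorem sg_sq (b : Bool) : sg b ^ 2 = 1 := by
  cases b <;> simp [sg]

/-- `|r|^q ≤ (q / (e L))^q * (exp (L r) + exp (-(L r)))`. -/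
theorem abs_rpow_le_exp (r q L : ℝ) (hq : 0 < q) (hL : 0 < L) :
    |r| ^ q ≤ (q / (Real.exp 1 * L)) ^ q * (Real.exp (L * r) + Real.exp (-(L * r))) := by
  have hu : 0 ≤ L * |r| / q := by positivity
  have h1 : L * |r| / q ≤ Real.exp (L * |r| / q - 1) := by
    have := Real.add_one_le_exp (L * |r| / q - 1)
    linarith
  have h2 : (L * |r| / q) ^ q ≤ Real.exp (L * |r| / q - 1) ^ q :=
    Real.rpow_le_rpow hu h1 hq.le
  have h3 : Real.exp (L * |r| / q - 1) ^ q = Real.exp (L * |r|) / Real.exp q := by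
    rw [← Real.exp_mul, ← Real.exp_sub]
    congr 1
    field_simp
  have h4 : |r| ^ q = (q / L) ^ q * (L * |r| / q) ^ q := by
    rw [← Real.mul_rpow (by positivity) hu]
    congr 1
    field_simp
  have h5 : Real.exp (L * |r|) ≤ Real.exp (L * r) + Real.exp (-(L * r)) := by
    rcases abs_cases r with ⟨h, -⟩ | ⟨h, -⟩
    · rw [h]
      have := Real.exp_pos (-(L * r))
      linarith
    · rw [h, mul_neg]
      have := Real.exp_pos (L * r)
      linarith
  have h6 : (q / (Real.exp 1 * L)) ^ q = (q / L) ^ q / Real.exp q := by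
    have : q / (Real.exp 1 * L) = (q / L) / Real.exp 1 := by
      field_simp
    rw [this, Real.div_rpow (by positivity) (Real.exp_pos 1).le, ← Real.exp_mul, one_mul]
  have hqL : 0 ≤ (q / L) ^ q := by positivity
  calc |r| ^ q = (q / L) ^ q * (L * |r| / q) ^ q := h4
    _ ≤ (q / L) ^ q * (Real.exp (L * |r|) / Real.exp q) := by
        rw [← h3]
        exact mul_le_mul_of_nonneg_left h2 hqL
    _ = (q / L) ^ q / Real.exp q * Real.exp (L * |r|) := by ring
    _ ≤ (q / L) ^ q / Real.exp q * (Real.exp (L * r) + Real.exp (-(L * r))) :=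
        mul_le_mul_of_nonneg_left h5 (by positivity)
    _ = _ := by rw [h6]

/-- The exponential moment of a Rademacher sum. -/
theorem sum_exp_rademacher (K : ℕ) (c : Fin K → ℝ) (L : ℝ) :
    ∑ ε : Fin K → Bool, Real.exp (L * ∑ i, c i * sg (ε i)) ≤
      2 ^ K * Real.exp (L ^ 2 * (∑ i, c i ^ 2) / 2) := by
  have h1 : ∀ ε : Fin K → Bool, Real.exp (L * ∑ i, c i * sg (ε i)) =
      ∏ i, Real.exp (L * c i * sg (ε i)) := by
    intro ε
    rw [← Real.exp_sum, Finset.mul_sum]
    congr 1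
    exact Finset.sum_congr rfl fun i _ => by ring
  rw [Finset.sum_congr rfl (fun ε _ => h1 ε)]
  rw [← Fintype.prod_sum (fun (i : Fin K) (b : Bool) => Real.exp (L * c i * sg b))]
  have h2 : ∀ i, ∑ b : Bool, Real.exp (L * c i * sg b) ≤
      2 * Real.exp (L ^ 2 * c i ^ 2 / 2) := by
    intro i
    have hc := Real.cosh_le_exp_half_sq (L * c i)
    rw [Real.cosh_eq] at hc
    simp only [Fintype.sum_bool, sg, if_true, if_false, Bool.false_eq_true]
    have e1 : L * c i * -1 = -(L * c i) := by ring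
    have e2 : (L * c i) ^ 2 / 2 = L ^ 2 * c i ^ 2 / 2 := by ring
    rw [e1, mul_one]
    rw [e2] at hc
    linarith
  calc ∏ i, ∑ b : Bool, Real.exp (L * c i * sg b)
      ≤ ∏ i : Fin K, (2 * Real.exp (L ^ 2 * c i ^ 2 / 2)) :=
        Finset.prod_le_prod (fun i _ => Finset.sum_nonneg fun b _ => (Real.exp_pos _).le)
          (fun i _ => h2 i)
    _ = 2 ^ K * Real.exp (L ^ 2 * (∑ i, c i ^ 2) / 2) := by
        rw [Finset.prod_mul_distrib, Finset.prod_const, Finset.card_univ, Fintype.card_fin,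
          ← Real.exp_sum]
        congr 2
        rw [Finset.mul_sum, Finset.sum_div]

/-- **Upper Khinchin inequality** on the cube. -/
theorem khinchin_upper (K : ℕ) (c : Fin K → ℝ) (A : ℝ) (hA : 0 < A) (hcA : ∑ i, c i ^ 2 ≤ A)
    (p : ℝ) (hp : 0 < p) :
    ∑ ε : Fin K → Bool, |∑ i, c i * sg (ε i)| ^ p ≤
      2 * 2 ^ K * (p * A / Real.exp 1) ^ (p / 2) := by
  obtain ⟨L, hLdef⟩ : ∃ L : ℝ, L = Real.sqrt (p / A) := ⟨_, rfl⟩
  have hL : 0 < L := by rw [hLdef]; exact Real.sqrt_pos.mpr (by positivity)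
  have hL2 : L ^ 2 = p / A := by rw [hLdef]; exact Real.sq_sqrt (by positivity)
  have hcoef : 0 ≤ (p / (Real.exp 1 * L)) ^ p := by positivity
  have hexp : ∀ M : ℝ, M ^ 2 = p / A →
      ∑ ε : Fin K → Bool, Real.exp (M * ∑ i, c i * sg (ε i)) ≤ 2 ^ K * Real.exp (p / 2) := by
    intro M hM
    refine (sum_exp_rademacher K c M).trans ?_
    refine mul_le_mul_of_nonneg_left (Real.exp_le_exp.mpr ?_) (by positivity)
    rw [hM]
    have h0 : 0 ≤ p / A := by positivity
    have : p / A * (∑ i, c i ^ 2) ≤ p / A * A := mul_le_mul_of_nonneg_left hcA h0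
    have h1 : p / A * A = p := by field_simp
    linarith
  have hpos := hexp L hL2
  have hneg := hexp (-L) (by rw [neg_sq]; exact hL2)
  have hneg' : ∑ ε : Fin K → Bool, Real.exp (-(L * ∑ i, c i * sg (ε i))) ≤
      2 ^ K * Real.exp (p / 2) := by
    refine le_trans (le_of_eq ?_) hneg
    exact Finset.sum_congr rfl fun ε _ => by rw [neg_mul]
  calc ∑ ε : Fin K → Bool, |∑ i, c i * sg (ε i)| ^ p
      ≤ ∑ ε : Fin K → Bool, (p / (Real.exp 1 * L)) ^ p *
          (Real.exp (L * ∑ i, c i * sg (ε i)) + Real.exp (-(L * ∑ i, c i * sg (ε i)))) :=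
        Finset.sum_le_sum fun ε _ => abs_rpow_le_exp _ p L hp hL
    _ = (p / (Real.exp 1 * L)) ^ p *
          (∑ ε : Fin K → Bool, Real.exp (L * ∑ i, c i * sg (ε i)) +
            ∑ ε : Fin K → Bool, Real.exp (-(L * ∑ i, c i * sg (ε i)))) := by
        rw [← Finset.mul_sum, Finset.sum_add_distrib]
    _ ≤ (p / (Real.exp 1 * L)) ^ p * (2 ^ K * Real.exp (p / 2) + 2 ^ K * Real.exp (p / 2)) :=
        mul_le_mul_of_nonneg_left (add_le_add hpos hneg') hcoef
    _ = 2 * 2 ^ K * (p * A / Real.exp 1) ^ (p / 2) := by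
        have e1 : (p / (Real.exp 1 * L)) ^ p = ((p / (Real.exp 1 * L)) ^ 2) ^ (p / 2) := by
          rw [← Real.rpow_natCast, ← Real.rpow_mul (by positivity)]
          congr 1
          push_cast
          ring
        have e2 : (p / (Real.exp 1 * L)) ^ 2 = p * A / Real.exp 1 ^ 2 := by
          rw [div_pow, mul_pow, hL2]
          field_simp
        have e3 : Real.exp (p / 2) = (Real.exp 1) ^ (p / 2) := by
          rw [← Real.exp_mul, one_mul]
        have e4 : (p * A / Real.exp 1 ^ 2) ^ (p / 2) * (Real.exp 1) ^ (p / 2) =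
            (p * A / Real.exp 1) ^ (p / 2) := by
          rw [← Real.mul_rpow (by positivity) (Real.exp_pos 1).le]
          congr 1
          field_simp
        rw [e1, e2, e3]
        calc (p * A / Real.exp 1 ^ 2) ^ (p / 2) *
              (2 ^ K * Real.exp 1 ^ (p / 2) + 2 ^ K * Real.exp 1 ^ (p / 2))
            = 2 * 2 ^ K * ((p * A / Real.exp 1 ^ 2) ^ (p / 2) * Real.exp 1 ^ (p / 2)) := by ring
          _ = 2 * 2 ^ K * (p * A / Real.exp 1) ^ (p / 2) := by rw [e4]

theorem sum_sq_diff_sg (K : ℕ) (a b : Fin K → Bool) :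
    ∑ i, (sg (a i) - sg (b i)) ^ 2 = 4 * (hammingDist a b : ℝ) := by
  have h1 : ∀ i, (sg (a i) - sg (b i)) ^ 2 = if a i ≠ b i then (4 : ℝ) else 0 := by
    intro i
    cases ha : a i <;> cases hb : b i <;> simp [sg] <;> norm_num
  rw [Finset.sum_congr rfl (fun i _ => h1 i), Finset.sum_ite, Finset.sum_const_zero, add_zero,
    Finset.sum_const, hammingDist]
  simp
  ring

/-- Job P249-LB-J3 (report 1854, (X1)): the `q`-th moment of the difference of two Rademacher
points. -/
theorem x1_upper (K : ℕ) (q : ℝ) (hq : 2 ≤ q) (a b : Fin K → Bool) :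
    ∑ e : Fin K → Bool,
      |∑ i, ((if a i then (-1:ℝ) else 1) - (if b i then (-1:ℝ) else 1)) *
        (if e i then (-1:ℝ) else 1)| ^ q
      ≤ 2 * q ^ (q / 2) * 2 ^ q * 2 ^ K * (hammingDist a b : ℝ) ^ (q / 2) := by
  have hq0 : 0 < q := by linarith
  have hrhs : 0 ≤ 2 * q ^ (q / 2) * 2 ^ q * 2 ^ K * (hammingDist a b : ℝ) ^ (q / 2) := by
    have h1 : 0 ≤ q ^ (q / 2) := Real.rpow_nonneg hq0.le _
    have h2 : (0 : ℝ) ≤ (2 : ℝ) ^ q := Real.rpow_nonneg (by norm_num) _
    have h3 : 0 ≤ (hammingDist a b : ℝ) ^ (q / 2) := Real.rpow_nonneg (Nat.cast_nonneg _) _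
    positivity
  rcases Nat.eq_zero_or_pos (hammingDist a b) with h0 | hpos
  · have hab : a = b := hammingDist_eq_zero.mp h0
    subst hab
    have : ∀ e : Fin K → Bool,
        |∑ i, ((if a i then (-1:ℝ) else 1) - (if a i then (-1:ℝ) else 1)) *
          (if e i then (-1:ℝ) else 1)| ^ q = 0 := by
      intro e
      simp only [sub_self, zero_mul, Finset.sum_const_zero, abs_zero]
      exact Real.zero_rpow hq0.ne'
    rw [Finset.sum_congr rfl (fun e _ => this e), Finset.sum_const_zero]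
    exact hrhs
  · have ht : (0 : ℝ) < (hammingDist a b : ℝ) := by exact_mod_cast hpos
    have hA : (0 : ℝ) < 4 * (hammingDist a b : ℝ) := by positivity
    have hk := khinchin_upper K (fun i => sg (a i) - sg (b i)) (4 * (hammingDist a b : ℝ)) hA
      (le_of_eq (sum_sq_diff_sg K a b)) q hq0
    have hform : ∀ e : Fin K → Bool,
        |∑ i, ((if a i then (-1:ℝ) else 1) - (if b i then (-1:ℝ) else 1)) *
          (if e i then (-1:ℝ) else 1)| ^ q = |∑ i, (sg (a i) - sg (b i)) * sg (e i)| ^ q :=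
      fun e => rfl
    rw [Finset.sum_congr rfl (fun e _ => hform e)]
    refine hk.trans ?_
    have he : (1 : ℝ) ≤ Real.exp 1 := by
      have := Real.add_one_le_exp (1 : ℝ)
      linarith
    have h1 : q * (4 * (hammingDist a b : ℝ)) / Real.exp 1 ≤ q * (4 * (hammingDist a b : ℝ)) :=
      div_le_self (by positivity) he
    have h2 : (q * (4 * (hammingDist a b : ℝ)) / Real.exp 1) ^ (q / 2) ≤
        (q * (4 * (hammingDist a b : ℝ))) ^ (q / 2) :=
      Real.rpow_le_rpow (by positivity) h1 (by positivity)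
    have h3 : (q * (4 * (hammingDist a b : ℝ))) ^ (q / 2) =
        q ^ (q / 2) * 2 ^ q * (hammingDist a b : ℝ) ^ (q / 2) := by
      rw [Real.mul_rpow hq0.le (by positivity), Real.mul_rpow (by norm_num) ht.le]
      have h4 : (4 : ℝ) ^ (q / 2) = (2 : ℝ) ^ q := by
        have : (4 : ℝ) = (2 : ℝ) ^ (2 : ℝ) := by norm_num
        rw [this, ← Real.rpow_mul (by norm_num)]
        congr 1
        ring
      rw [h4]
      ring
    calc 2 * 2 ^ K * (q * (4 * (hammingDist a b : ℝ)) / Real.exp 1) ^ (q / 2)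
        ≤ 2 * 2 ^ K * (q * (4 * (hammingDist a b : ℝ))) ^ (q / 2) :=
          mul_le_mul_of_nonneg_left h2 (by positivity)
      _ = 2 * q ^ (q / 2) * 2 ^ q * 2 ^ K * (hammingDist a b : ℝ) ^ (q / 2) := by
          rw [h3]
          ring

end Vale.Agent.Lib.P249.H59
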