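import Vale.Agent.Lib.P249.helper53.Cube

/-!
# P249: concentration of sqrt-Hamming-Lipschitz functions on the cube (job P249-LB-J2)
-/

namespace Vale.Agent.Lib.P249.H59

open Finset

/-- A median of a real function on a nonempty finite type. -/
theorem exists_median {α : Type*} [Fintype α] [Nonempty α] (h : α → ℝ) :
    ∃ M : ℝ, Fintype.card α ≤ 2 * (Finset.univ.filter (fun a => h a ≤ M)).card ∧
      Fintype.card α ≤ 2 * (Finset.univ.filter (fun a => M ≤ h a)).card := by
  classical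
  obtain ⟨S, hS⟩ : ∃ S : Finset ℝ, S = (Finset.univ.image h).filter
      (fun v => Fintype.card α ≤ 2 * (Finset.univ.filter (fun a => h a ≤ v)).card) := ⟨_, rfl⟩
  have hne : S.Nonempty := by
    obtain ⟨a0, -, ha0⟩ := Finset.exists_max_image Finset.univ h Finset.univ_nonempty
    refine ⟨h a0, ?_⟩
    rw [hS, Finset.mem_filter]
    refine ⟨Finset.mem_image_of_mem h (Finset.mem_univ a0), ?_⟩
    have : Finset.univ.filter (fun a => h a ≤ h a0) = Finset.univ :=
      Finset.filter_true_of_mem fun a _ => ha0 a (Finset.mem_univ a)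
    rw [this, Finset.card_univ]
    omega
  have hSmem : ∀ v, v ∈ S ↔ v ∈ Finset.univ.image h ∧
      Fintype.card α ≤ 2 * (Finset.univ.filter (fun a => h a ≤ v)).card := by
    intro v
    rw [hS, Finset.mem_filter]
  obtain ⟨M, hMmem, hMmin⟩ : ∃ M, M ∈ S ∧ ∀ v ∈ S, M ≤ v :=
    ⟨S.min' hne, Finset.min'_mem S hne, fun v hv => Finset.min'_le S v hv⟩
  refine ⟨M, ((hSmem M).mp hMmem).2, ?_⟩
  by_contra hlt
  rw [not_le] at hlt
  have hsplit := Finset.card_filter_add_card_filter_not (s := (Finset.univ : Finset α))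
    (fun a => h a < M)
  rw [Finset.card_univ] at hsplit
  have hnot : Finset.univ.filter (fun a => ¬ h a < M) =
      Finset.univ.filter (fun a => M ≤ h a) :=
    Finset.filter_congr fun a _ => not_lt
  rw [hnot] at hsplit
  have hpos : 0 < (Finset.univ.filter (fun a => h a < M)).card := by omega
  obtain ⟨a1, ha1, hmax⟩ := Finset.exists_max_image _ h (Finset.card_pos.mp hpos)
  have ha1' : h a1 < M := (Finset.mem_filter.mp ha1).2
  have hsub : Finset.univ.filter (fun a => h a < M) ⊆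
      Finset.univ.filter (fun a => h a ≤ h a1) := by
    intro a ha
    exact Finset.mem_filter.mpr ⟨Finset.mem_univ a, hmax a ha⟩
  have hcard := Finset.card_le_card hsub
  have hmem : h a1 ∈ S := by
    rw [hSmem]
    refine ⟨Finset.mem_image_of_mem h (Finset.mem_univ a1), ?_⟩
    omega
  have := hMmin (h a1) hmem
  linarith

/-- `r^s ≤ (s / (e L))^s * exp (L r)` for `r ≥ 0`. -/
theorem rpow_le_exp (r s L : ℝ) (hr : 0 ≤ r) (hs : 0 < s) (hL : 0 < L) :
    r ^ s ≤ (s / (Real.exp 1 * L)) ^ s * Real.exp (L * r) := by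
  have hu : 0 ≤ L * r / s := by positivity
  have h1 : L * r / s ≤ Real.exp (L * r / s - 1) := by
    have := Real.add_one_le_exp (L * r / s - 1)
    linarith
  have h2 : (L * r / s) ^ s ≤ Real.exp (L * r / s - 1) ^ s := Real.rpow_le_rpow hu h1 hs.le
  have h3 : Real.exp (L * r / s - 1) ^ s = Real.exp (L * r) / Real.exp s := by
    rw [← Real.exp_mul, ← Real.exp_sub]
    congr 1
    field_simp
  have h4 : r ^ s = (s / L) ^ s * (L * r / s) ^ s := by
    rw [← Real.mul_rpow (by positivity) hu]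
    congr 1
    field_simp
  have h6 : (s / (Real.exp 1 * L)) ^ s = (s / L) ^ s / Real.exp s := by
    have : s / (Real.exp 1 * L) = (s / L) / Real.exp 1 := by
      field_simp
    rw [this, Real.div_rpow (by positivity) (Real.exp_pos 1).le, ← Real.exp_mul, one_mul]
  have hsL : 0 ≤ (s / L) ^ s := by positivity
  calc r ^ s = (s / L) ^ s * (L * r / s) ^ s := h4
    _ ≤ (s / L) ^ s * (Real.exp (L * r) / Real.exp s) := by
        rw [← h3]
        exact mul_le_mul_of_nonneg_left h2 hsL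
    _ = (s / L) ^ s / Real.exp s * Real.exp (L * r) := by ring
    _ = _ := by rw [h6]

/-- One side of the concentration around a median. -/
theorem one_side (K : ℕ) (Lam : ℝ) (hLam : 0 < Lam) (k : (Fin K → Bool) → ℝ)
    (hlip : ∀ a b, |k a - k b| ≤ Lam * Real.sqrt (hammingDist a b)) (M : ℝ)
    (hM : 2 ^ K ≤ 2 * (Finset.univ.filter (fun a => k a ≤ M)).card) (L : ℝ) (hL : 0 < L) :
    ∑ a, Real.exp (L * (max (k a - M) 0) ^ 2 / Lam ^ 2) ≤
      2 * 2 ^ K * Real.exp (L ^ 2 * K / 4) := by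
  classical
  obtain ⟨T, hT⟩ : ∃ T : ℝ, T = ∑ a, L * (max (k a - M) 0) ^ 2 / Lam ^ 2 := ⟨_, rfl⟩
  have hterm : ∀ a, 0 ≤ L * (max (k a - M) 0) ^ 2 / Lam ^ 2 := fun a => by positivity
  have hTge : ∀ a, L * (max (k a - M) 0) ^ 2 / Lam ^ 2 ≤ T := by
    intro a
    rw [hT]
    exact Finset.single_le_sum (f := fun a => L * (max (k a - M) 0) ^ 2 / Lam ^ 2)
      (fun a _ => hterm a) (Finset.mem_univ a)
  have hfg : ∀ a b, L * (max (k a - M) 0) ^ 2 / Lam ^ 2 ≤
      (if k b ≤ M then 0 else T) + L * (hammingDist a b : ℝ) := by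
    intro a b
    have hham : (0 : ℝ) ≤ (hammingDist a b : ℝ) := Nat.cast_nonneg _
    by_cases hb : k b ≤ M
    · rw [if_pos hb, zero_add]
      have h1 : max (k a - M) 0 ≤ Lam * Real.sqrt (hammingDist a b) := by
        refine max_le ?_ (by positivity)
        have h2 := hlip a b
        have h3 := le_abs_self (k a - k b)
        linarith
      have h4 : (max (k a - M) 0) ^ 2 ≤ Lam ^ 2 * (hammingDist a b : ℝ) := by
        have h5 : (max (k a - M) 0) ^ 2 ≤ (Lam * Real.sqrt (hammingDist a b)) ^ 2 :=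
          pow_le_pow_left₀ (le_max_right _ _) h1 2
        rw [mul_pow, Real.sq_sqrt hham] at h5
        exact h5
      rw [div_le_iff₀ (by positivity)]
      calc L * (max (k a - M) 0) ^ 2 ≤ L * (Lam ^ 2 * (hammingDist a b : ℝ)) :=
            mul_le_mul_of_nonneg_left h4 hL.le
        _ = L * (hammingDist a b : ℝ) * Lam ^ 2 := by ring
    · rw [if_neg hb]
      have := hTge a
      have h2 : 0 ≤ L * (hammingDist a b : ℝ) := by positivity
      linarith
  have hpl := Vale.Agent.Lib.P249.H53.pl_cube K L hL.le (fun b => if k b ≤ M then 0 else T)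
    (fun a => L * (max (k a - M) 0) ^ 2 / Lam ^ 2) hfg
  have hB : ((Finset.univ.filter (fun a => k a ≤ M)).card : ℝ) ≤
      ∑ b, Real.exp (-(if k b ≤ M then 0 else T)) := by
    have h1 : ∑ b ∈ Finset.univ.filter (fun a => k a ≤ M),
        Real.exp (-(if k b ≤ M then 0 else T)) =
        ((Finset.univ.filter (fun a => k a ≤ M)).card : ℝ) := by
      rw [Finset.sum_congr rfl (g := fun _ => (1 : ℝ))]
      · simp
      · intro b hb
        rw [if_pos (Finset.mem_filter.mp hb).2, neg_zero, Real.exp_zero]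
    rw [← h1]
    exact Finset.sum_le_sum_of_subset_of_nonneg (Finset.filter_subset _ _)
      (fun b _ _ => (Real.exp_pos _).le)
  have hM' : (2 : ℝ) ^ K ≤ 2 * ((Finset.univ.filter (fun a => k a ≤ M)).card : ℝ) := by
    exact_mod_cast hM
  have hA0 : 0 ≤ ∑ a, Real.exp (L * (max (k a - M) 0) ^ 2 / Lam ^ 2) :=
    Finset.sum_nonneg fun a _ => (Real.exp_pos _).le
  have h2K : (0 : ℝ) < 2 ^ K := by positivity
  have h4 : (4 : ℝ) ^ K = 2 ^ K * 2 ^ K := by
    rw [← mul_pow]
    norm_num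
  have hE : 0 < Real.exp (L ^ 2 * K / 4) := Real.exp_pos _
  have hchain : (∑ a, Real.exp (L * (max (k a - M) 0) ^ 2 / Lam ^ 2)) * ((2 : ℝ) ^ K / 2) ≤
      2 ^ K * 2 ^ K * Real.exp (L ^ 2 * K / 4) := by
    rw [← h4]
    refine le_trans (mul_le_mul_of_nonneg_left ?_ hA0) hpl
    linarith
  have hfin : (∑ a, Real.exp (L * (max (k a - M) 0) ^ 2 / Lam ^ 2)) ≤
      2 * 2 ^ K * Real.exp (L ^ 2 * K / 4) := by
    by_contra hcon
    rw [not_le] at hcon
    have : 2 * 2 ^ K * Real.exp (L ^ 2 * K / 4) * ((2 : ℝ) ^ K / 2) <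
        (∑ a, Real.exp (L * (max (k a - M) 0) ^ 2 / Lam ^ 2)) * ((2 : ℝ) ^ K / 2) :=
      mul_lt_mul_of_pos_right hcon (by positivity)
    have e : 2 * 2 ^ K * Real.exp (L ^ 2 * K / 4) * ((2 : ℝ) ^ K / 2) =
        2 ^ K * 2 ^ K * Real.exp (L ^ 2 * K / 4) := by ring
    linarith
  exact hfin

/-- Job P249-LB-J2 (report 1854, Lemma 2): concentration of sqrt-Hamming-Lipschitz functions on
the cube. -/
theorem conc_cube (K : ℕ) (hK : 1 ≤ K) (q : ℝ) (hq : 2 ≤ q) (Lam : ℝ) (hLam : 0 ≤ Lam)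
    (h : (Fin K → Bool) → ℝ)
    (hlip : ∀ a b, |h a - h b| ≤ Lam * Real.sqrt (hammingDist a b)) :
    ∑ a, ∑ b, |h a - h b| ^ q ≤ 4 ^ K * 2 ^ (q + 2) * Lam ^ q * (q * K) ^ (q / 4) := by
  have hq0 : 0 < q := by linarith
  have hKr : (1 : ℝ) ≤ K := by exact_mod_cast hK
  have hK0 : (0 : ℝ) < K := by linarith
  have hqK : 0 ≤ (q * K) ^ (q / 4) := Real.rpow_nonneg (by positivity) _
  have hLq : 0 ≤ Lam ^ q := Real.rpow_nonneg hLam q
  have h2q : (0 : ℝ) ≤ (2 : ℝ) ^ (q + 2) := Real.rpow_nonneg (by norm_num) _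
  have hrhs : 0 ≤ 4 ^ K * 2 ^ (q + 2) * Lam ^ q * (q * K) ^ (q / 4) := by positivity
  rcases hLam.eq_or_lt with h0 | hpos
  · have hz : ∀ a b, |h a - h b| ^ q = 0 := by
      intro a b
      have h1 := hlip a b
      rw [← h0, zero_mul] at h1
      have h2 : |h a - h b| = 0 := le_antisymm h1 (abs_nonneg _)
      rw [h2, Real.zero_rpow hq0.ne']
    simp only [hz, Finset.sum_const_zero]
    exact hrhs
  obtain ⟨M, hM1, hM2⟩ := exists_median h
  have hcard : Fintype.card (Fin K → Bool) = 2 ^ K := by simp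
  rw [hcard] at hM1 hM2
  obtain ⟨L, hLdef⟩ : ∃ L : ℝ, L = Real.sqrt (q / K) := ⟨_, rfl⟩
  have hL : 0 < L := by rw [hLdef]; exact Real.sqrt_pos.mpr (by positivity)
  have hL2 : L ^ 2 = q / K := by rw [hLdef]; exact Real.sq_sqrt (by positivity)
  have hup := one_side K Lam hpos h hlip M hM1 L hL
  have hlo := one_side K Lam hpos (fun a => -h a) (fun a b => by
      have h1 := hlip a b
      have e : -h a - -h b = -(h a - h b) := by ring
      rw [e, abs_neg]
      exact h1) (-M) (by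
      have e : Finset.univ.filter (fun a => -h a ≤ -M) = Finset.univ.filter (fun a => M ≤ h a) :=
        Finset.filter_congr fun a _ => neg_le_neg_iff
      rw [e]
      exact hM2) L hL
  have hboth : ∑ a, Real.exp (L * (h a - M) ^ 2 / Lam ^ 2) ≤
      4 * 2 ^ K * Real.exp (L ^ 2 * K / 4) := by
    have hpt : ∀ a, Real.exp (L * (h a - M) ^ 2 / Lam ^ 2) ≤
        Real.exp (L * (max (h a - M) 0) ^ 2 / Lam ^ 2) +
          Real.exp (L * (max (-h a - -M) 0) ^ 2 / Lam ^ 2) := by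
      intro a
      rcases le_total M (h a) with hge | hle
      · have e : max (h a - M) 0 = h a - M := max_eq_left (by linarith)
        rw [e]
        have := Real.exp_pos (L * (max (-h a - -M) 0) ^ 2 / Lam ^ 2)
        linarith
      · have e : max (-h a - -M) 0 = M - h a := by
          rw [max_eq_left (by linarith)]
          ring
        rw [e]
        have e2 : (M - h a) ^ 2 = (h a - M) ^ 2 := by ring
        rw [e2]
        have := Real.exp_pos (L * (max (h a - M) 0) ^ 2 / Lam ^ 2)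
        linarith
    calc ∑ a, Real.exp (L * (h a - M) ^ 2 / Lam ^ 2)
        ≤ ∑ a, (Real.exp (L * (max (h a - M) 0) ^ 2 / Lam ^ 2) +
            Real.exp (L * (max (-h a - -M) 0) ^ 2 / Lam ^ 2)) :=
          Finset.sum_le_sum fun a _ => hpt a
      _ = ∑ a, Real.exp (L * (max (h a - M) 0) ^ 2 / Lam ^ 2) +
            ∑ a, Real.exp (L * (max (-h a - -M) 0) ^ 2 / Lam ^ 2) := Finset.sum_add_distrib
      _ ≤ 2 * 2 ^ K * Real.exp (L ^ 2 * K / 4) + 2 * 2 ^ K * Real.exp (L ^ 2 * K / 4) :=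
          add_le_add hup hlo
      _ = 4 * 2 ^ K * Real.exp (L ^ 2 * K / 4) := by ring
  -- the constant
  have he1 : (1 : ℝ) ≤ Real.exp 1 := by
    have := Real.add_one_le_exp (1 : ℝ)
    linarith
  have hc0 : 0 ≤ (q / 2 / (Real.exp 1 * L)) ^ (q / 2) := by positivity
  have hconst : (q / 2 / (Real.exp 1 * L)) ^ (q / 2) * Real.exp (L ^ 2 * K / 4) ≤
      (q * K) ^ (q / 4) := by
    have e1 : (q / 2 / (Real.exp 1 * L)) ^ (q / 2) =
        ((q / 2 / (Real.exp 1 * L)) ^ 2) ^ (q / 4) := by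
      rw [← Real.rpow_natCast, ← Real.rpow_mul (by positivity)]
      congr 1
      push_cast
      ring
    have e2 : (q / 2 / (Real.exp 1 * L)) ^ 2 = q * K / (4 * Real.exp 1 ^ 2) := by
      rw [div_pow, mul_pow, hL2]
      field_simp
      ring
    have e3 : Real.exp (L ^ 2 * K / 4) = Real.exp 1 ^ (q / 4) := by
      rw [hL2, ← Real.exp_mul, one_mul]
      congr 1
      field_simp
    rw [e1, e2, e3, ← Real.mul_rpow (by positivity) (Real.exp_pos 1).le]
    refine Real.rpow_le_rpow (by positivity) ?_ (by positivity)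
    have e4 : q * K / (4 * Real.exp 1 ^ 2) * Real.exp 1 = q * K / (4 * Real.exp 1) := by
      field_simp
    rw [e4]
    exact div_le_self (by positivity) (by linarith)
  have hmom : ∑ a, |h a - M| ^ q ≤ 4 * 2 ^ K * Lam ^ q * (q * K) ^ (q / 4) := by
    have hterm : ∀ a, |h a - M| ^ q ≤ Lam ^ q * (q / 2 / (Real.exp 1 * L)) ^ (q / 2) *
        Real.exp (L * (h a - M) ^ 2 / Lam ^ 2) := by
      intro a
      have hr : 0 ≤ (h a - M) ^ 2 / Lam ^ 2 := by positivity
      have h1 := rpow_le_exp ((h a - M) ^ 2 / Lam ^ 2) (q / 2) L hr (by positivity) hL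
      have h2 : |h a - M| ^ q = Lam ^ q * ((h a - M) ^ 2 / Lam ^ 2) ^ (q / 2) := by
        have e1 : (h a - M) ^ 2 / Lam ^ 2 = (|h a - M| / Lam) ^ 2 := by
          rw [div_pow, sq_abs]
        rw [e1, ← Real.rpow_natCast (|h a - M| / Lam) 2, ← Real.rpow_mul (by positivity)]
        have e2 : ((2 : ℕ) : ℝ) * (q / 2) = q := by
          push_cast
          ring
        rw [e2, Real.div_rpow (abs_nonneg _) hpos.le]
        have hLamq : Lam ^ q ≠ 0 := (Real.rpow_pos_of_pos hpos q).ne'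
        field_simp
      have e3 : L * (h a - M) ^ 2 / Lam ^ 2 = L * ((h a - M) ^ 2 / Lam ^ 2) := by ring
      rw [h2, e3]
      calc Lam ^ q * ((h a - M) ^ 2 / Lam ^ 2) ^ (q / 2)
          ≤ Lam ^ q * ((q / 2 / (Real.exp 1 * L)) ^ (q / 2) *
              Real.exp (L * ((h a - M) ^ 2 / Lam ^ 2))) :=
            mul_le_mul_of_nonneg_left h1 hLq
        _ = Lam ^ q * (q / 2 / (Real.exp 1 * L)) ^ (q / 2) *
              Real.exp (L * ((h a - M) ^ 2 / Lam ^ 2)) := by ring
    calc ∑ a, |h a - M| ^ q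
        ≤ ∑ a, Lam ^ q * (q / 2 / (Real.exp 1 * L)) ^ (q / 2) *
            Real.exp (L * (h a - M) ^ 2 / Lam ^ 2) := Finset.sum_le_sum fun a _ => hterm a
      _ = Lam ^ q * (q / 2 / (Real.exp 1 * L)) ^ (q / 2) *
            ∑ a, Real.exp (L * (h a - M) ^ 2 / Lam ^ 2) := by rw [Finset.mul_sum]
      _ ≤ Lam ^ q * (q / 2 / (Real.exp 1 * L)) ^ (q / 2) *
            (4 * 2 ^ K * Real.exp (L ^ 2 * K / 4)) :=
          mul_le_mul_of_nonneg_left hboth (by positivity)
      _ = 4 * 2 ^ K * Lam ^ q *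
            ((q / 2 / (Real.exp 1 * L)) ^ (q / 2) * Real.exp (L ^ 2 * K / 4)) := by ring
      _ ≤ 4 * 2 ^ K * Lam ^ q * (q * K) ^ (q / 4) :=
          mul_le_mul_of_nonneg_left hconst (by positivity)
  -- pairs
  have h2q1 : (0 : ℝ) ≤ (2 : ℝ) ^ (q - 1) := Real.rpow_nonneg (by norm_num) _
  have hpair : ∀ a b, |h a - h b| ^ q ≤ 2 ^ (q - 1) * (|h a - M| ^ q + |h b - M| ^ q) := by
    intro a b
    have h1 : |h a - h b| ≤ |h a - M| + |h b - M| := by
      have := abs_sub_le (h a) M (h b)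
      rw [abs_sub_comm M (h b)] at this
      exact this
    have h2 : |h a - h b| ^ q ≤ (|h a - M| + |h b - M|) ^ q :=
      Real.rpow_le_rpow (abs_nonneg _) h1 hq0.le
    have h3 := (convexOn_rpow (by linarith : (1 : ℝ) ≤ q)).2
      (Set.mem_Ici.mpr (abs_nonneg (h a - M))) (Set.mem_Ici.mpr (abs_nonneg (h b - M)))
      (by norm_num : (0 : ℝ) ≤ 1 / 2) (by norm_num : (0 : ℝ) ≤ 1 / 2) (by norm_num)
    simp only [smul_eq_mul] at h3
    have h4 : (|h a - M| + |h b - M|) ^ q =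
        2 ^ q * (1 / 2 * |h a - M| + 1 / 2 * |h b - M|) ^ q := by
      rw [← Real.mul_rpow (by norm_num) (by positivity)]
      congr 1
      ring
    have h5 : (2 : ℝ) ^ q = 2 ^ (q - 1) * 2 := by
      rw [Real.rpow_sub_one (by norm_num)]
      field_simp
    have h6 : (0 : ℝ) ≤ (2 : ℝ) ^ q := Real.rpow_nonneg (by norm_num) _
    calc |h a - h b| ^ q ≤ (|h a - M| + |h b - M|) ^ q := h2
      _ = 2 ^ q * (1 / 2 * |h a - M| + 1 / 2 * |h b - M|) ^ q := h4
      _ ≤ 2 ^ q * (1 / 2 * |h a - M| ^ q + 1 / 2 * |h b - M| ^ q) :=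
          mul_le_mul_of_nonneg_left h3 h6
      _ = 2 ^ (q - 1) * (|h a - M| ^ q + |h b - M| ^ q) := by
          rw [h5]
          ring
  have hsumsum : ∑ a : Fin K → Bool, ∑ b : Fin K → Bool, (|h a - M| ^ q + |h b - M| ^ q) =
      2 * 2 ^ K * ∑ a, |h a - M| ^ q := by
    have hc : ((Finset.univ : Finset (Fin K → Bool)).card : ℝ) = 2 ^ K := by
      rw [Finset.card_univ, hcard]
      push_cast
      rfl
    simp only [Finset.sum_add_distrib, Finset.sum_const, nsmul_eq_mul, hc]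
    rw [← Finset.mul_sum]
    ring
  have h22 : (2 : ℝ) ^ (q + 2) = 2 ^ (q - 1) * 8 := by
    rw [Real.rpow_add (by norm_num), Real.rpow_two, Real.rpow_sub_one (by norm_num)]
    field_simp
    norm_num
  have h4K : (4 : ℝ) ^ K = 2 ^ K * 2 ^ K := by
    rw [← mul_pow]
    norm_num
  calc ∑ a, ∑ b, |h a - h b| ^ q
      ≤ ∑ a : Fin K → Bool, ∑ b : Fin K → Bool,
          2 ^ (q - 1) * (|h a - M| ^ q + |h b - M| ^ q) :=
        Finset.sum_le_sum fun a _ => Finset.sum_le_sum fun b _ => hpair a b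
    _ = 2 ^ (q - 1) * (2 * 2 ^ K * ∑ a, |h a - M| ^ q) := by
        rw [← hsumsum, Finset.mul_sum]
        refine Finset.sum_congr rfl fun a _ => ?_
        rw [Finset.mul_sum]
    _ ≤ 2 ^ (q - 1) * (2 * 2 ^ K * (4 * 2 ^ K * Lam ^ q * (q * K) ^ (q / 4))) :=
        mul_le_mul_of_nonneg_left (mul_le_mul_of_nonneg_left hmom (by positivity)) h2q1
    _ = 4 ^ K * 2 ^ (q + 2) * Lam ^ q * (q * K) ^ (q / 4) := by
        rw [h22, h4K]
        ring

end Vale.Agent.Lib.P249.H59
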