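import Vale.Agent.Lib.P249.helper62.GridDefs
import Vale.Agent.Lib.P249.helper59.X1

/-!
# P249 grid lower bound: moments of differences of Lipschitz functions on the grid (job GRID-F)

`grid_conc_of_pair` is the statement of job GRID-F with the upstream two-function inequality
(`grid_pair`, job GRID-E) as an explicit hypothesis `hpair`.
-/

namespace Vale.Agent.Lib.P249.H59g

open Finset
open Vale.Agent.Lib.P249.H62

theorem gPhi_pos (M k : ℕ) (x : Fin k → Fin (2 * M + 1)) : 0 < gPhi M k x := by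
  unfold gPhi
  exact Finset.prod_pos fun j _ => Real.exp_pos _

theorem gdist2_nonneg (M k : ℕ) (x y : Fin k → Fin (2 * M + 1)) : 0 ≤ gdist2 M k x y := by
  unfold gdist2
  exact Finset.sum_nonneg fun j _ => sq_nonneg _

theorem gdist2_comm (M k : ℕ) (x y : Fin k → Fin (2 * M + 1)) :
    gdist2 M k x y = gdist2 M k y x := by
  unfold gdist2
  exact Finset.sum_congr rfl fun j _ => by ring

/-- Laplace transform bound for pairs, from the two-function inequality. -/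
theorem grid_laplace_of_pair (M : ℕ) (hM : 1 ≤ M) (k : ℕ)
    (hpair : ∀ (f g : (Fin k → Fin (2 * M + 1)) → ℝ),
      (∀ x y, g x ≤ f y + gdist2 M k x y / (2 * (M : ℝ) ^ 2)) →
      (∑ x, gPhi M k x * Real.exp (g x)) * (∑ y, gPhi M k y * Real.exp (-f y))
        ≤ (gZ M + 1) ^ (2 * k))
    (Lam : ℝ) (t : ℝ) (ht : 0 ≤ t)
    (h : (Fin k → Fin (2 * M + 1)) → ℝ)
    (hlip : ∀ x y, |h x - h y| ≤ Lam * Real.sqrt (gdist2 M k x y)) :
    ∑ x, ∑ y, gPhi M k x * gPhi M k y * Real.exp (t * (h x - h y))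
      ≤ (gZ M + 1) ^ (2 * k) * Real.exp (t ^ 2 * Lam ^ 2 * (M : ℝ) ^ 2 / 2) := by
  have hMr : (1 : ℝ) ≤ M := by exact_mod_cast hM
  have hM0 : (0 : ℝ) < M := by linarith
  have key := hpair (fun y => t * h y)
    (fun x => t * h x - t ^ 2 * Lam ^ 2 * (M : ℝ) ^ 2 / 2) (by
      intro x y
      obtain ⟨r, hrdef⟩ : ∃ r : ℝ, r = Real.sqrt (gdist2 M k x y) := ⟨_, rfl⟩
      have hr0 : 0 ≤ r := by rw [hrdef]; exact Real.sqrt_nonneg _
      have hr2 : r ^ 2 = gdist2 M k x y := by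
        rw [hrdef]; exact Real.sq_sqrt (gdist2_nonneg M k x y)
      have h1 : h x - h y ≤ Lam * r := by
        rw [hrdef]
        exact le_trans (le_abs_self _) (hlip x y)
      have h2 : t * (h x - h y) ≤ t * (Lam * r) := mul_le_mul_of_nonneg_left h1 ht
      have h3 : 0 ≤ (t * Lam * M - r / M) ^ 2 := sq_nonneg _
      have h4 : (t * Lam * M - r / M) ^ 2 =
          t ^ 2 * Lam ^ 2 * (M : ℝ) ^ 2 - 2 * (t * (Lam * r)) + r ^ 2 / (M : ℝ) ^ 2 := by
        field_simp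
        ring
      have h5 : gdist2 M k x y / (2 * (M : ℝ) ^ 2) = r ^ 2 / (M : ℝ) ^ 2 / 2 := by
        rw [← hr2]
        field_simp
      rw [h5]
      show t * h x - t ^ 2 * Lam ^ 2 * (M : ℝ) ^ 2 / 2 ≤ t * h y + r ^ 2 / (M : ℝ) ^ 2 / 2
      have h6 : t * (h x - h y) = t * h x - t * h y := by ring
      linarith)
  have e1 : (∑ x, gPhi M k x * Real.exp (t * h x - t ^ 2 * Lam ^ 2 * (M : ℝ) ^ 2 / 2)) *
      (∑ y, gPhi M k y * Real.exp (-(t * h y))) =
      (∑ x, ∑ y, gPhi M k x * gPhi M k y * Real.exp (t * (h x - h y))) *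
        Real.exp (-(t ^ 2 * Lam ^ 2 * (M : ℝ) ^ 2 / 2)) := by
    rw [Finset.sum_mul_sum, Finset.sum_mul]
    refine Finset.sum_congr rfl fun x _ => ?_
    rw [Finset.sum_mul]
    refine Finset.sum_congr rfl fun y _ => ?_
    have e : t * h x - t ^ 2 * Lam ^ 2 * (M : ℝ) ^ 2 / 2 =
        t * (h x - h y) + -(t ^ 2 * Lam ^ 2 * (M : ℝ) ^ 2 / 2) + t * h y := by ring
    rw [e, Real.exp_add, Real.exp_add, Real.exp_neg (t * h y)]
    have hne : Real.exp (t * h y) ≠ 0 := (Real.exp_pos _).ne'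
    field_simp
  have key' : (∑ x, ∑ y, gPhi M k x * gPhi M k y * Real.exp (t * (h x - h y))) *
      Real.exp (-(t ^ 2 * Lam ^ 2 * (M : ℝ) ^ 2 / 2)) ≤ (gZ M + 1) ^ (2 * k) := by
    rw [← e1]
    exact key
  have hE : Real.exp (-(t ^ 2 * Lam ^ 2 * (M : ℝ) ^ 2 / 2)) *
      Real.exp (t ^ 2 * Lam ^ 2 * (M : ℝ) ^ 2 / 2) = 1 := by
    rw [← Real.exp_add]
    simp
  calc ∑ x, ∑ y, gPhi M k x * gPhi M k y * Real.exp (t * (h x - h y))
      = (∑ x, ∑ y, gPhi M k x * gPhi M k y * Real.exp (t * (h x - h y))) *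
          Real.exp (-(t ^ 2 * Lam ^ 2 * (M : ℝ) ^ 2 / 2)) *
          Real.exp (t ^ 2 * Lam ^ 2 * (M : ℝ) ^ 2 / 2) := by
        rw [mul_assoc, hE, mul_one]
    _ ≤ (gZ M + 1) ^ (2 * k) * Real.exp (t ^ 2 * Lam ^ 2 * (M : ℝ) ^ 2 / 2) :=
        mul_le_mul_of_nonneg_right key' (Real.exp_pos _).le

/-- Job GRID-F with the upstream inequality as a hypothesis. -/
theorem grid_conc_of_pair (M : ℕ) (hM : 1 ≤ M) (k : ℕ)
    (hpair : ∀ (f g : (Fin k → Fin (2 * M + 1)) → ℝ),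
      (∀ x y, g x ≤ f y + gdist2 M k x y / (2 * (M : ℝ) ^ 2)) →
      (∑ x, gPhi M k x * Real.exp (g x)) * (∑ y, gPhi M k y * Real.exp (-f y))
        ≤ (gZ M + 1) ^ (2 * k))
    (q : ℝ) (hq : 1 ≤ q) (Lam : ℝ) (hLam : 0 ≤ Lam)
    (h : (Fin k → Fin (2 * M + 1)) → ℝ)
    (hlip : ∀ x y, |h x - h y| ≤ Lam * Real.sqrt (gdist2 M k x y)) :
    ∑ x, ∑ y, gPhi M k x * gPhi M k y * |h x - h y| ^ q
      ≤ 2 * (gZ M + 1) ^ (2 * k) * (q * (M : ℝ) ^ 2 / Real.exp 1) ^ (q / 2) * Lam ^ q := by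
  have hq0 : 0 < q := by linarith
  have hMr : (1 : ℝ) ≤ M := by exact_mod_cast hM
  have hM0 : (0 : ℝ) < M := by linarith
  have hZ0 : 0 ≤ gZ M := by
    unfold gZ
    exact Finset.sum_nonneg fun t _ => (Real.exp_pos _).le
  have hZ1 : 0 ≤ (gZ M + 1) ^ (2 * k) := by positivity
  have hLq : 0 ≤ Lam ^ q := Real.rpow_nonneg hLam q
  have hcq : 0 ≤ (q * (M : ℝ) ^ 2 / Real.exp 1) ^ (q / 2) := Real.rpow_nonneg (by positivity) _
  have hrhs : 0 ≤ 2 * (gZ M + 1) ^ (2 * k) * (q * (M : ℝ) ^ 2 / Real.exp 1) ^ (q / 2) *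
      Lam ^ q := by positivity
  rcases hLam.eq_or_lt with h0 | hpos
  · have hz : ∀ x y, gPhi M k x * gPhi M k y * |h x - h y| ^ q = 0 := by
      intro x y
      have h1 := hlip x y
      rw [← h0, zero_mul] at h1
      have h2 : |h x - h y| = 0 := le_antisymm h1 (abs_nonneg _)
      rw [h2, Real.zero_rpow hq0.ne', mul_zero]
    simp only [hz, Finset.sum_const_zero]
    exact hrhs
  obtain ⟨t, htdef⟩ : ∃ t : ℝ, t = Real.sqrt q / (Lam * M) := ⟨_, rfl⟩
  have hsq : 0 < Real.sqrt q := Real.sqrt_pos.mpr hq0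
  have ht : 0 < t := by rw [htdef]; positivity
  have ht2 : t ^ 2 * Lam ^ 2 * (M : ℝ) ^ 2 = q := by
    rw [htdef, div_pow, Real.sq_sqrt hq0.le]
    field_simp
  have hlap := grid_laplace_of_pair M hM k hpair Lam t ht.le h hlip
  have hlap' : ∑ x, ∑ y, gPhi M k x * gPhi M k y * Real.exp (-(t * (h x - h y)))
      ≤ (gZ M + 1) ^ (2 * k) * Real.exp (t ^ 2 * Lam ^ 2 * (M : ℝ) ^ 2 / 2) := by
    rw [Finset.sum_comm]
    refine le_trans (le_of_eq ?_) hlap
    refine Finset.sum_congr rfl fun x _ => Finset.sum_congr rfl fun y _ => ?_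
    have e : -(t * (h y - h x)) = t * (h x - h y) := by ring
    rw [e]
    ring
  have hterm : ∀ x y, gPhi M k x * gPhi M k y * |h x - h y| ^ q ≤
      (q / (Real.exp 1 * t)) ^ q *
        (gPhi M k x * gPhi M k y * Real.exp (t * (h x - h y)) +
          gPhi M k x * gPhi M k y * Real.exp (-(t * (h x - h y)))) := by
    intro x y
    have h1 := Vale.Agent.Lib.P249.H59.abs_rpow_le_exp (h x - h y) q t hq0 ht
    have h2 : 0 ≤ gPhi M k x * gPhi M k y :=
      mul_nonneg (gPhi_pos M k x).le (gPhi_pos M k y).le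
    calc gPhi M k x * gPhi M k y * |h x - h y| ^ q
        ≤ gPhi M k x * gPhi M k y * ((q / (Real.exp 1 * t)) ^ q *
            (Real.exp (t * (h x - h y)) + Real.exp (-(t * (h x - h y))))) :=
          mul_le_mul_of_nonneg_left h1 h2
      _ = (q / (Real.exp 1 * t)) ^ q *
          (gPhi M k x * gPhi M k y * Real.exp (t * (h x - h y)) +
            gPhi M k x * gPhi M k y * Real.exp (-(t * (h x - h y)))) := by ring
  have hc0 : 0 ≤ (q / (Real.exp 1 * t)) ^ q := Real.rpow_nonneg (by positivity) _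
  have hconst : (q / (Real.exp 1 * t)) ^ q * Real.exp (t ^ 2 * Lam ^ 2 * (M : ℝ) ^ 2 / 2) =
      (q * (M : ℝ) ^ 2 / Real.exp 1) ^ (q / 2) * Lam ^ q := by
    have e0 : q / (Real.exp 1 * t) = Real.sqrt q * M / Real.exp 1 * Lam := by
      rw [htdef]
      have hs2 : Real.sqrt q * Real.sqrt q = q := Real.mul_self_sqrt hq0.le
      field_simp
      nlinarith [hs2]
    have e1 : (Real.sqrt q * M / Real.exp 1) ^ q =
        ((Real.sqrt q * M / Real.exp 1) ^ 2) ^ (q / 2) := by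
      rw [← Real.rpow_natCast, ← Real.rpow_mul (by positivity)]
      congr 1
      push_cast
      ring
    have e2 : (Real.sqrt q * M / Real.exp 1) ^ 2 = q * (M : ℝ) ^ 2 / Real.exp 1 ^ 2 := by
      rw [div_pow, mul_pow, Real.sq_sqrt hq0.le]
    have e3 : Real.exp (t ^ 2 * Lam ^ 2 * (M : ℝ) ^ 2 / 2) = Real.exp 1 ^ (q / 2) := by
      rw [ht2, ← Real.exp_mul, one_mul]
    rw [e0, Real.mul_rpow (by positivity) hLam, e1, e2, e3]
    have e4 : (q * (M : ℝ) ^ 2 / Real.exp 1 ^ 2) ^ (q / 2) * Lam ^ q * Real.exp 1 ^ (q / 2) =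
        ((q * (M : ℝ) ^ 2 / Real.exp 1 ^ 2) ^ (q / 2) * Real.exp 1 ^ (q / 2)) * Lam ^ q := by
      ring
    rw [e4, ← Real.mul_rpow (by positivity) (Real.exp_pos 1).le]
    congr 2
    field_simp
  calc ∑ x, ∑ y, gPhi M k x * gPhi M k y * |h x - h y| ^ q
      ≤ ∑ x, ∑ y, (q / (Real.exp 1 * t)) ^ q *
          (gPhi M k x * gPhi M k y * Real.exp (t * (h x - h y)) +
            gPhi M k x * gPhi M k y * Real.exp (-(t * (h x - h y)))) :=
        Finset.sum_le_sum fun x _ => Finset.sum_le_sum fun y _ => hterm x y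
    _ = (q / (Real.exp 1 * t)) ^ q *
          (∑ x, ∑ y, gPhi M k x * gPhi M k y * Real.exp (t * (h x - h y)) +
            ∑ x, ∑ y, gPhi M k x * gPhi M k y * Real.exp (-(t * (h x - h y)))) := by
        rw [← Finset.sum_add_distrib, Finset.mul_sum]
        refine Finset.sum_congr rfl fun x _ => ?_
        rw [← Finset.sum_add_distrib, Finset.mul_sum]
    _ ≤ (q / (Real.exp 1 * t)) ^ q *
          ((gZ M + 1) ^ (2 * k) * Real.exp (t ^ 2 * Lam ^ 2 * (M : ℝ) ^ 2 / 2) +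
            (gZ M + 1) ^ (2 * k) * Real.exp (t ^ 2 * Lam ^ 2 * (M : ℝ) ^ 2 / 2)) :=
        mul_le_mul_of_nonneg_left (add_le_add hlap hlap') hc0
    _ = 2 * (gZ M + 1) ^ (2 * k) *
          ((q / (Real.exp 1 * t)) ^ q * Real.exp (t ^ 2 * Lam ^ 2 * (M : ℝ) ^ 2 / 2)) := by ring
    _ = 2 * (gZ M + 1) ^ (2 * k) * (q * (M : ℝ) ^ 2 / Real.exp 1) ^ (q / 2) * Lam ^ q := by
        rw [hconst]
        ring

end Vale.Agent.Lib.P249.H59g
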