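import Vale.Agent.Lib.P249.helper62.GridDefs
import Vale.Agent.Lib.P249.helper59.GridConc
import Vale.Agent.Lib.P249.helper91.CubeX1
import Vale.Agent.Lib.P249.helper69.X2

/-!
# P249 grid lower bound: Khinchine bounds, weight bounds, distinctness and the finite core

Backup copies (helper59) of the pieces of helper62's skeleton (report 2004):
`khin_upper`, `khin_lower`, `gZ_bounds`, `gZ_defect`, `gX_injective`, and the core assembly
`grid_core_gen` with the two upstream inequalities (`grid_pair`, `grid_spread`) as hypotheses.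
-/

namespace Vale.Agent.Lib.P249.H59g

open Finset
open Vale.Agent.Lib.P249.H62

/-- Khinchine upper bound, arbitrary real coefficients. -/
theorem khin_upper (k : ℕ) (q : ℝ) (hq : 0 < q) (c : Fin k → ℝ) :
    ∑ e : Fin k → Bool, |∑ j, c j * sg (e j)| ^ q
      ≤ 2 * 2 ^ k * (q * (∑ j, c j ^ 2) / Real.exp 1) ^ (q / 2) :=
  Vale.Agent.Lib.P249.H91.khinchin_cube k c q hq

/-- second moment of a Rademacher sum. -/
theorem sum_sq_rad (k : ℕ) (c : Fin k → ℝ) :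
    ∑ e : Fin k → Bool, (∑ j, c j * sg (e j)) ^ 2 = 2 ^ k * ∑ j, c j ^ 2 :=
  Vale.Agent.Lib.P249.H69.sum_rad_sq c

/-- Khinchine lower bound for `q ≥ 2`, arbitrary real coefficients. -/
theorem khin_lower (k : ℕ) (q : ℝ) (hq : 2 ≤ q) (c : Fin k → ℝ) :
    (2:ℝ) ^ k * (∑ j, c j ^ 2) ^ (q / 2) ≤ ∑ e : Fin k → Bool, |∑ j, c j * sg (e j)| ^ q := by
  have h := Vale.Agent.Lib.P249.H69.card_mul_rpow_le_sum_abs_rpow
    (fun e : Fin k → Bool => ∑ j, c j * sg (e j)) q hq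
  have hcard : (Fintype.card (Fin k → Bool) : ℝ) = 2 ^ k := by simp
  rw [hcard, sum_sq_rad] at h
  have e : (2:ℝ) ^ k * ∑ j, c j ^ 2 = (∑ j, c j ^ 2) * 2 ^ k := by ring
  rw [e, mul_div_assoc, div_self (by positivity), mul_one] at h
  exact h

theorem gv_sq_le (M : ℕ) (t : Fin (2 * M + 1)) : (gv M t) ^ 2 ≤ (M : ℝ) ^ 2 := by
  unfold gv
  have h1 : (t : ℕ) ≤ 2 * M := Nat.lt_succ_iff.mp t.isLt
  have h2 : ((t : ℕ) : ℝ) ≤ 2 * (M : ℝ) := by exact_mod_cast h1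
  have h3 : (0 : ℝ) ≤ ((t : ℕ) : ℝ) := Nat.cast_nonneg _
  nlinarith

theorem gphi_le_one (M : ℕ) (t : Fin (2 * M + 1)) : gphi M t ≤ 1 := by
  unfold gphi
  rw [← Real.exp_zero]
  apply Real.exp_le_exp.mpr
  have : 0 ≤ (gv M t) ^ 2 / (M : ℝ) ^ 2 := by positivity
  rw [neg_div]
  linarith

theorem gphi_ge (M : ℕ) (hM : 1 ≤ M) (t : Fin (2 * M + 1)) : Real.exp (-1) ≤ gphi M t := by
  unfold gphi
  apply Real.exp_le_exp.mpr
  have hMr : (1 : ℝ) ≤ M := by exact_mod_cast hM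
  have hM2 : (0 : ℝ) < (M : ℝ) ^ 2 := by positivity
  rw [neg_div, neg_le_neg_iff, div_le_one hM2]
  exact gv_sq_le M t

/-- bounds on the one-coordinate total weight. -/
theorem gZ_bounds (M : ℕ) (hM : 1 ≤ M) :
    (2 * (M : ℝ) + 1) / Real.exp 1 ≤ gZ M ∧ gZ M ≤ 2 * (M : ℝ) + 1 := by
  unfold gZ
  constructor
  · have h1 : ∑ _t : Fin (2 * M + 1), Real.exp (-1) ≤ ∑ t : Fin (2 * M + 1), gphi M t :=
      Finset.sum_le_sum fun t _ => gphi_ge M hM t
    rw [Finset.sum_const, Finset.card_univ, Fintype.card_fin, nsmul_eq_mul] at h1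
    rw [Real.exp_neg] at h1
    push_cast at h1
    rw [div_eq_mul_inv]
    exact h1
  · have h1 : ∑ t : Fin (2 * M + 1), gphi M t ≤ ∑ _t : Fin (2 * M + 1), (1 : ℝ) :=
      Finset.sum_le_sum fun t _ => gphi_le_one M t
    rw [Finset.sum_const, Finset.card_univ, Fintype.card_fin, nsmul_eq_mul, mul_one] at h1
    push_cast at h1
    exact h1

/-- the defect is summable: `(Z + 1)^(2k) ≤ e * Z^(2k)` for `M = 3k`. -/
theorem gZ_defect (k : ℕ) (hk : 1 ≤ k) :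
    (gZ (3 * k) + 1) ^ (2 * k) ≤ Real.exp 1 * gZ (3 * k) ^ (2 * k) := by
  have hkr : (1 : ℝ) ≤ k := by exact_mod_cast hk
  have hb := (gZ_bounds (3 * k) (by omega)).1
  push_cast at hb
  have he : 0 < Real.exp 1 := Real.exp_pos 1
  have he3 : Real.exp 1 < 3 := lt_trans Real.exp_one_lt_d9 (by norm_num)
  have hZ : 0 < gZ (3 * k) := lt_of_lt_of_le (by positivity) hb
  have h1 : gZ (3 * k) + 1 = gZ (3 * k) * (1 + 1 / gZ (3 * k)) := by
    field_simp
  have h2 : 1 + 1 / gZ (3 * k) ≤ Real.exp (1 / gZ (3 * k)) := by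
    have := Real.add_one_le_exp (1 / gZ (3 * k))
    linarith
  have h3 : (1 + 1 / gZ (3 * k)) ^ (2 * k) ≤ Real.exp (1 / gZ (3 * k)) ^ (2 * k) :=
    pow_le_pow_left₀ (by positivity) h2 _
  have h4 : Real.exp (1 / gZ (3 * k)) ^ (2 * k) = Real.exp (((2 * k : ℕ) : ℝ) * (1 / gZ (3 * k))) :=
    (Real.exp_nat_mul _ _).symm
  have h5 : ((2 * k : ℕ) : ℝ) * (1 / gZ (3 * k)) ≤ 1 := by
    push_cast
    rw [mul_one_div, div_le_one hZ]
    have h6 : 2 * (k : ℝ) * Real.exp 1 ≤ 2 * (3 * (k : ℝ)) + 1 := by nlinarith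
    have h7 : 2 * (k : ℝ) ≤ (2 * (3 * (k : ℝ)) + 1) / Real.exp 1 := by
      rw [le_div_iff₀ he]
      exact h6
    linarith
  have h6 : Real.exp (((2 * k : ℕ) : ℝ) * (1 / gZ (3 * k))) ≤ Real.exp 1 :=
    Real.exp_le_exp.mpr h5
  rw [h1, mul_pow]
  calc gZ (3 * k) ^ (2 * k) * (1 + 1 / gZ (3 * k)) ^ (2 * k)
      ≤ gZ (3 * k) ^ (2 * k) * Real.exp 1 :=
        mul_le_mul_of_nonneg_left (le_trans h3 (h4 ▸ h6)) (by positivity)
    _ = Real.exp 1 * gZ (3 * k) ^ (2 * k) := by ring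

theorem gv_injective (M : ℕ) : Function.Injective (gv M) := by
  intro t t' h
  unfold gv at h
  have h1 : ((t : ℕ) : ℝ) = ((t' : ℕ) : ℝ) := by linarith
  exact Fin.ext (by exact_mod_cast h1)

theorem gX_sub (M k : ℕ) (x x' : Fin k → Fin (2 * M + 1)) (e : Fin k → Bool) :
    gX M k x e - gX M k x' e = ∑ j, (gv M (x j) - gv M (x' j)) * sg (e j) := by
  unfold gX
  rw [← Finset.sum_sub_distrib]
  exact Finset.sum_congr rfl fun j _ => by ring

/-- the points are distinct. -/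
theorem gX_injective (M k : ℕ) : Function.Injective (gX M k) := by
  intro x x' h
  have h1 : ∀ e : Fin k → Bool, ∑ j, (gv M (x j) - gv M (x' j)) * sg (e j) = 0 := by
    intro e
    rw [← gX_sub, h, sub_self]
  have h2 := sum_sq_rad k (fun j => gv M (x j) - gv M (x' j))
  simp only [h1] at h2
  have h3 : ∑ j, (gv M (x j) - gv M (x' j)) ^ 2 = 0 := by
    have h4 : (2:ℝ) ^ k * ∑ j, (gv M (x j) - gv M (x' j)) ^ 2 = 0 := by
      rw [← h2]
      simp
    rcases mul_eq_zero.mp h4 with h5 | h5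
    · exact absurd h5 (by positivity)
    · exact h5
  have h4 := (Finset.sum_eq_zero_iff_of_nonneg (fun j _ => sq_nonneg _)).mp h3
  funext j
  have h5 := h4 j (Finset.mem_univ j)
  have h6 : gv M (x j) - gv M (x' j) = 0 := by
    exact pow_eq_zero_iff (two_ne_zero) |>.mp h5
  exact gv_injective M (by linarith)

/-- The finite core of the grid lower bound for a general grid size `M`, with the two-function
inequality (`grid_pair`), the spread bound (`grid_spread`) and the defect bound as hypotheses.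
`Δ` plays the role of `D ^ q`. -/
theorem grid_core_gen (M : ℕ) (hM : 1 ≤ M) (k : ℕ) (hk : 1 ≤ k) (q : ℝ) (hq : 2 ≤ q)
    (hpair : ∀ (f g : (Fin k → Fin (2 * M + 1)) → ℝ),
      (∀ x y, g x ≤ f y + gdist2 M k x y / (2 * (M : ℝ) ^ 2)) →
      (∑ x, gPhi M k x * Real.exp (g x)) * (∑ y, gPhi M k y * Real.exp (-f y))
        ≤ (gZ M + 1) ^ (2 * k))
    (hspread : gZ M ^ (2 * k) * (2 * k * (M : ℝ) ^ 2 / (3 * Real.exp 2)) ^ (q / 2)
      ≤ ∑ x, ∑ y, gPhi M k x * gPhi M k y * (gdist2 M k x y) ^ (q / 2))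
    (hdef : (gZ M + 1) ^ (2 * k) ≤ Real.exp 1 * gZ M ^ (2 * k))
    (d : ℕ) (s Δ : ℝ) (hs : 0 < s)
    (y : (Fin k → Fin (2 * M + 1)) → Fin d → ℝ)
    (hlow : ∀ c c', s ^ q * ∑ e, |gX M k c e - gX M k c' e| ^ q ≤ ∑ i, |y c i - y c' i| ^ q)
    (hup : ∀ c c', ∑ i, |y c i - y c' i| ^ q
      ≤ Δ * s ^ q * ∑ e, |gX M k c e - gX M k c' e| ^ q) :
    (1 / 11 : ℝ) * (2 * k / (3 * q ^ 2)) ^ (q / 2) ≤ Δ * d := by
  have hq0 : 0 < q := by linarith
  have hq1 : 1 ≤ q := by linarith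
  have hMr : (1 : ℝ) ≤ M := by exact_mod_cast hM
  have hM0 : (0 : ℝ) < M := by linarith
  have hkr : (1 : ℝ) ≤ k := by exact_mod_cast hk
  have hk0 : (0 : ℝ) < k := by linarith
  have he : 0 < Real.exp 1 := Real.exp_pos 1
  have he2 : Real.exp 2 = Real.exp 1 ^ 2 := by
    rw [sq, ← Real.exp_add]
    norm_num
  have hZ : 0 < gZ M := lt_of_lt_of_le (by positivity) (gZ_bounds M hM).1
  have hsq : 0 < s ^ q := Real.rpow_pos_of_pos hs q
  have hd : (0 : ℝ) ≤ d := Nat.cast_nonneg d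
  -- Khinchine for the differences
  have hXeq : ∀ c c', ∑ e : Fin k → Bool, |gX M k c e - gX M k c' e| ^ q =
      ∑ e : Fin k → Bool, |∑ j, (gv M (c j) - gv M (c' j)) * sg (e j)| ^ q := fun c c' =>
    Finset.sum_congr rfl fun e _ => by rw [gX_sub]
  have hXup : ∀ c c', ∑ e, |gX M k c e - gX M k c' e| ^ q
      ≤ 2 * 2 ^ k * ((q / Real.exp 1) ^ (q / 2) * (gdist2 M k c c') ^ (q / 2)) := by
    intro c c'
    have h1 := khin_upper k q hq0 (fun j => gv M (c j) - gv M (c' j))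
    rw [hXeq]
    refine le_trans h1 (le_of_eq ?_)
    have h3 : q * (∑ j, (gv M (c j) - gv M (c' j)) ^ 2) / Real.exp 1 =
        (q / Real.exp 1) * gdist2 M k c c' := by
      unfold gdist2
      ring
    rw [h3, Real.mul_rpow (by positivity) (gdist2_nonneg M k c c')]
  have hXlow : ∀ c c', (2:ℝ) ^ k * (gdist2 M k c c') ^ (q / 2)
      ≤ ∑ e, |gX M k c e - gX M k c' e| ^ q := by
    intro c c'
    have h1 := khin_lower k q hq (fun j => gv M (c j) - gv M (c' j))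
    rw [hXeq]
    exact h1
  have hX0 : ∀ c c', 0 ≤ ∑ e, |gX M k c e - gX M k c' e| ^ q := fun c c' =>
    Finset.sum_nonneg fun e _ => Real.rpow_nonneg (abs_nonneg _) _
  have hW0 : ∀ c c', 0 ≤ gPhi M k c * gPhi M k c' := fun c c' =>
    mul_nonneg (gPhi_pos M k c).le (gPhi_pos M k c').le
  -- lower chain
  have hlower : s ^ q * 2 ^ k *
      (gZ M ^ (2 * k) * (2 * k * (M : ℝ) ^ 2 / (3 * Real.exp 2)) ^ (q / 2))
      ≤ ∑ c, ∑ c', gPhi M k c * gPhi M k c' * ∑ i, |y c i - y c' i| ^ q := by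
    calc s ^ q * 2 ^ k * (gZ M ^ (2 * k) * (2 * k * (M : ℝ) ^ 2 / (3 * Real.exp 2)) ^ (q / 2))
        ≤ s ^ q * 2 ^ k *
            ∑ c, ∑ c', gPhi M k c * gPhi M k c' * (gdist2 M k c c') ^ (q / 2) :=
          mul_le_mul_of_nonneg_left hspread (by positivity)
      _ = ∑ c, ∑ c', gPhi M k c * gPhi M k c' *
            (s ^ q * (2 ^ k * (gdist2 M k c c') ^ (q / 2))) := by
          rw [Finset.mul_sum]
          refine Finset.sum_congr rfl fun c _ => ?_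
          rw [Finset.mul_sum]
          exact Finset.sum_congr rfl fun c' _ => by ring
      _ ≤ ∑ c, ∑ c', gPhi M k c * gPhi M k c' * ∑ i, |y c i - y c' i| ^ q := by
          refine Finset.sum_le_sum fun c _ => Finset.sum_le_sum fun c' _ => ?_
          refine mul_le_mul_of_nonneg_left ?_ (hW0 c c')
          exact le_trans (mul_le_mul_of_nonneg_left (hXlow c c') hsq.le) (hlow c c')
  have hT0 : 0 < (2 * k * (M : ℝ) ^ 2 / (3 * Real.exp 2)) ^ (q / 2) :=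
    Real.rpow_pos_of_pos (by positivity) _
  have hlower_pos : 0 < s ^ q * 2 ^ k *
      (gZ M ^ (2 * k) * (2 * k * (M : ℝ) ^ 2 / (3 * Real.exp 2)) ^ (q / 2)) := by positivity
  -- the constant is nonnegative
  have hΔ : 0 ≤ Δ := by
    by_contra hneg
    rw [not_le] at hneg
    have h1 : ∀ c c', gPhi M k c * gPhi M k c' * ∑ i, |y c i - y c' i| ^ q ≤ 0 := by
      intro c c'
      have h2 : ∑ i, |y c i - y c' i| ^ q ≤ 0 := by
        refine le_trans (hup c c') ?_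
        have h3 : Δ * s ^ q ≤ 0 := mul_nonpos_of_nonpos_of_nonneg hneg.le hsq.le
        exact mul_nonpos_of_nonpos_of_nonneg h3 (hX0 c c')
      exact mul_nonpos_of_nonneg_of_nonpos (hW0 c c') h2
    have h3 : ∑ c, ∑ c', gPhi M k c * gPhi M k c' * ∑ i, |y c i - y c' i| ^ q ≤ 0 :=
      Finset.sum_nonpos fun c _ => Finset.sum_nonpos fun c' _ => h1 c c'
    linarith
  -- the coordinate functions are Lipschitz
  have hqe : 0 < (q / Real.exp 1) ^ (q / 2) := Real.rpow_pos_of_pos (by positivity) _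
  obtain ⟨C, hCdef⟩ : ∃ C : ℝ, C = Δ * s ^ q * (2 * 2 ^ k * (q / Real.exp 1) ^ (q / 2)) :=
    ⟨_, rfl⟩
  have hC0 : 0 ≤ C := by rw [hCdef]; positivity
  obtain ⟨Lam, hLamdef⟩ : ∃ Lam : ℝ, Lam = C ^ q⁻¹ := ⟨_, rfl⟩
  have hLam0 : 0 ≤ Lam := by rw [hLamdef]; exact Real.rpow_nonneg hC0 _
  have hLamq : Lam ^ q = C := by
    rw [hLamdef]; exact Real.rpow_inv_rpow hC0 hq0.ne'
  have hlip : ∀ i : Fin d, ∀ c c', |y c i - y c' i| ≤ Lam * Real.sqrt (gdist2 M k c c') := by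
    intro i c c'
    have h1 : |y c i - y c' i| ^ q ≤ ∑ i, |y c i - y c' i| ^ q :=
      Finset.single_le_sum (f := fun i => |y c i - y c' i| ^ q)
        (fun i _ => Real.rpow_nonneg (abs_nonneg _) _) (Finset.mem_univ i)
    have h2 : ∑ i, |y c i - y c' i| ^ q ≤ C * (gdist2 M k c c') ^ (q / 2) := by
      refine le_trans (hup c c') ?_
      refine le_trans (mul_le_mul_of_nonneg_left (hXup c c') (by positivity)) (le_of_eq ?_)
      rw [hCdef]; ring
    have h3 : (Lam * Real.sqrt (gdist2 M k c c')) ^ q = C * (gdist2 M k c c') ^ (q / 2) := by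
      rw [Real.mul_rpow hLam0 (Real.sqrt_nonneg _), hLamq, Real.sqrt_eq_rpow,
        ← Real.rpow_mul (gdist2_nonneg M k c c')]
      congr 2
      ring
    have h4 : |y c i - y c' i| ^ q ≤ (Lam * Real.sqrt (gdist2 M k c c')) ^ q := by
      rw [h3]; exact le_trans h1 h2
    exact (Real.rpow_le_rpow_iff (abs_nonneg _) (by positivity) hq0).mp h4
  -- upper chain
  have hcq : 0 < (q * (M : ℝ) ^ 2 / Real.exp 1) ^ (q / 2) :=
    Real.rpow_pos_of_pos (by positivity) _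
  have hupper : ∑ c, ∑ c', gPhi M k c * gPhi M k c' * ∑ i, |y c i - y c' i| ^ q
      ≤ d * (2 * (gZ M + 1) ^ (2 * k) * (q * (M : ℝ) ^ 2 / Real.exp 1) ^ (q / 2) * C) := by
    have h1 : ∑ c, ∑ c', gPhi M k c * gPhi M k c' * ∑ i, |y c i - y c' i| ^ q =
        ∑ i : Fin d, ∑ c, ∑ c', gPhi M k c * gPhi M k c' * |y c i - y c' i| ^ q := by
      calc ∑ c, ∑ c', gPhi M k c * gPhi M k c' * ∑ i, |y c i - y c' i| ^ q
          = ∑ c, ∑ i : Fin d, ∑ c', gPhi M k c * gPhi M k c' * |y c i - y c' i| ^ q := by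
            refine Finset.sum_congr rfl fun c _ => ?_
            rw [Finset.sum_comm]
            refine Finset.sum_congr rfl fun c' _ => ?_
            rw [Finset.mul_sum]
        _ = ∑ i : Fin d, ∑ c, ∑ c', gPhi M k c * gPhi M k c' * |y c i - y c' i| ^ q :=
            Finset.sum_comm
    rw [h1]
    have h2 : ∀ i : Fin d, ∑ c, ∑ c', gPhi M k c * gPhi M k c' * |y c i - y c' i| ^ q
        ≤ 2 * (gZ M + 1) ^ (2 * k) * (q * (M : ℝ) ^ 2 / Real.exp 1) ^ (q / 2) * C := by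
      intro i
      have h3 := grid_conc_of_pair M hM k hpair q hq1 Lam hLam0 (fun c => y c i) (hlip i)
      rw [hLamq] at h3
      exact h3
    calc ∑ i : Fin d, ∑ c, ∑ c', gPhi M k c * gPhi M k c' * |y c i - y c' i| ^ q
        ≤ ∑ _i : Fin d,
            2 * (gZ M + 1) ^ (2 * k) * (q * (M : ℝ) ^ 2 / Real.exp 1) ^ (q / 2) * C :=
          Finset.sum_le_sum fun i _ => h2 i
      _ = d * (2 * (gZ M + 1) ^ (2 * k) * (q * (M : ℝ) ^ 2 / Real.exp 1) ^ (q / 2) * C) := by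
          rw [Finset.sum_const, Finset.card_univ, Fintype.card_fin, nsmul_eq_mul]
  -- combine
  have hcomb : s ^ q * 2 ^ k *
      (gZ M ^ (2 * k) * (2 * k * (M : ℝ) ^ 2 / (3 * Real.exp 2)) ^ (q / 2))
      ≤ d * (2 * (Real.exp 1 * gZ M ^ (2 * k)) *
          (q * (M : ℝ) ^ 2 / Real.exp 1) ^ (q / 2) * C) := by
    refine le_trans (le_trans hlower hupper) ?_
    refine mul_le_mul_of_nonneg_left ?_ hd
    have hBC : 0 ≤ (q * (M : ℝ) ^ 2 / Real.exp 1) ^ (q / 2) * C := mul_nonneg hcq.le hC0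
    have := mul_le_mul_of_nonneg_right hdef hBC
    nlinarith [this]
  -- the power algebra
  have halg : (2 * k * (M : ℝ) ^ 2 / (3 * Real.exp 2)) ^ (q / 2) =
      (2 * k / (3 * q ^ 2)) ^ (q / 2) * (q * (M : ℝ) ^ 2 / Real.exp 1) ^ (q / 2) *
        (q / Real.exp 1) ^ (q / 2) := by
    rw [← Real.mul_rpow (by positivity) (by positivity),
      ← Real.mul_rpow (by positivity) (by positivity)]
    congr 1
    rw [he2]
    field_simp
  obtain ⟨T, hTdef⟩ : ∃ T : ℝ, T = (2 * k / (3 * q ^ 2)) ^ (q / 2) := ⟨_, rfl⟩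
  obtain ⟨P, hPdef⟩ : ∃ P : ℝ, P = s ^ q * 2 ^ k * gZ M ^ (2 * k) *
      (q * (M : ℝ) ^ 2 / Real.exp 1) ^ (q / 2) * (q / Real.exp 1) ^ (q / 2) := ⟨_, rfl⟩
  have hP : 0 < P := by rw [hPdef]; positivity
  have hfin : P * T ≤ P * (4 * Real.exp 1 * (Δ * d)) := by
    have e1 : P * T = s ^ q * 2 ^ k *
        (gZ M ^ (2 * k) * (2 * k * (M : ℝ) ^ 2 / (3 * Real.exp 2)) ^ (q / 2)) := by
      rw [halg, hPdef, hTdef]; ring
    have e2 : P * (4 * Real.exp 1 * (Δ * d)) = d * (2 * (Real.exp 1 * gZ M ^ (2 * k)) *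
        (q * (M : ℝ) ^ 2 / Real.exp 1) ^ (q / 2) * C) := by
      rw [hPdef, hCdef]; ring
    rw [e1, e2]
    exact hcomb
  have hT : T ≤ 4 * Real.exp 1 * (Δ * d) := le_of_mul_le_mul_left hfin hP
  have he3 : Real.exp 1 < 2.75 := lt_trans Real.exp_one_lt_d9 (by norm_num)
  have hΔd : 0 ≤ Δ * d := mul_nonneg hΔ hd
  rw [← hTdef]
  nlinarith [mul_nonneg hΔd (sub_nonneg.mpr he3.le)]

/-- The finite core of the grid lower bound (statement of helper62's skeleton, report 2004), with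
the two upstream inequalities (`grid_pair` and `grid_spread` for `M = 3 * k`) as hypotheses. -/
theorem grid_core_of (k : ℕ) (hk : 1 ≤ k) (q : ℝ) (hq : 2 ≤ q)
    (hpair : ∀ (f g : (Fin k → Fin (2 * (3 * k) + 1)) → ℝ),
      (∀ x y, g x ≤ f y + gdist2 (3 * k) k x y / (2 * ((3 * k : ℕ) : ℝ) ^ 2)) →
      (∑ x, gPhi (3 * k) k x * Real.exp (g x)) * (∑ y, gPhi (3 * k) k y * Real.exp (-f y))
        ≤ (gZ (3 * k) + 1) ^ (2 * k))
    (hspread : gZ (3 * k) ^ (2 * k) *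
        (2 * k * ((3 * k : ℕ) : ℝ) ^ 2 / (3 * Real.exp 2)) ^ (q / 2)
      ≤ ∑ x, ∑ y, gPhi (3 * k) k x * gPhi (3 * k) k y * (gdist2 (3 * k) k x y) ^ (q / 2))
    (d : ℕ) (s D : ℝ) (hs : 0 < s)
    (y : (Fin k → Fin (2 * (3 * k) + 1)) → Fin d → ℝ)
    (hlow : ∀ c c', s ^ q * ∑ e, |gX (3 * k) k c e - gX (3 * k) k c' e| ^ q
      ≤ ∑ i, |y c i - y c' i| ^ q)
    (hup : ∀ c c', ∑ i, |y c i - y c' i| ^ q
      ≤ D ^ q * s ^ q * ∑ e, |gX (3 * k) k c e - gX (3 * k) k c' e| ^ q) :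
    (1 / 11 : ℝ) * (2 * k / (3 * q ^ 2)) ^ (q / 2) ≤ D ^ q * d :=
  grid_core_gen (3 * k) (by omega) k hk q hq hpair hspread (gZ_defect k hk) d s (D ^ q) hs y
    hlow hup

end Vale.Agent.Lib.P249.H59g
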