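import Mathlib

/-!
# P249: dimension reduction for incompressible families of `L_p(μ)` - the glue (helper59 backup)

`incompressible_of`: the final statement (finitely many points of `L_p(μ)` dominated by a function
of norm at most `K` are mapped into `ℓ_p^d`, `d ≤ 170 (2K)^(2p) log n / ε²`, with additive error `ε`
in the `p`-th powers of the distances), with the finite case (`incomp_fin`, pool job INC-A) and the
passage from simple functions to `ℝ^m` (`simple_dom`, pool job INC-B) as explicit hypotheses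
`hA`, `hB` in their exact pool-job forms.
-/

open MeasureTheory

namespace Vale.Agent.Lib.P249.H59i

/-- Mean value inequality for powers: `|a^q - b^q| ≤ q R^(q-1) |a - b|` for `0 ≤ a, b ≤ R`. -/
theorem abs_rpow_sub_rpow_le (a b q R : ℝ) (ha : 0 ≤ a) (hb : 0 ≤ b) (hq : 1 ≤ q)
    (haR : a ≤ R) (hbR : b ≤ R) : |a ^ q - b ^ q| ≤ q * R ^ (q - 1) * |a - b| := by
  have key : ∀ u v : ℝ, 0 ≤ v → v ≤ u → u ≤ R → u ^ q - v ^ q ≤ q * R ^ (q - 1) * (u - v) := by
    intro u v hv hvu huR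
    have hu0 : 0 ≤ u := le_trans hv hvu
    rcases hu0.eq_or_lt with h0 | hupos
    · have hv0 : v = 0 := le_antisymm (by rw [h0]; exact hvu) hv
      rw [← h0, hv0]
      simp
    have hs : (-1 : ℝ) ≤ v / u - 1 := by
      have : 0 ≤ v / u := div_nonneg hv hu0
      linarith
    have hB := one_add_mul_self_le_rpow_one_add hs hq
    have e1 : 1 + (v / u - 1) = v / u := by ring
    rw [e1, Real.div_rpow hv hu0] at hB
    have huq : 0 < u ^ q := Real.rpow_pos_of_pos hupos q
    have h1 : u ^ q * (1 + q * (v / u - 1)) ≤ v ^ q := by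
      have := mul_le_mul_of_nonneg_left hB huq.le
      rwa [mul_div_cancel₀ _ huq.ne'] at this
    have h2 : u ^ q * (1 + q * (v / u - 1)) = u ^ q - q * u ^ (q - 1) * (u - v) := by
      rw [Real.rpow_sub_one hupos.ne']
      field_simp
      ring
    rw [h2] at h1
    have h3 : u ^ (q - 1) ≤ R ^ (q - 1) := Real.rpow_le_rpow hu0 huR (by linarith)
    have h4 : q * u ^ (q - 1) * (u - v) ≤ q * R ^ (q - 1) * (u - v) := by
      apply mul_le_mul_of_nonneg_right _ (by linarith)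
      exact mul_le_mul_of_nonneg_left h3 (by linarith)
    linarith
  rcases le_total b a with hba | hab
  · rw [abs_of_nonneg (sub_nonneg.mpr (Real.rpow_le_rpow hb hba (by linarith))),
      abs_of_nonneg (sub_nonneg.mpr hba)]
    exact key a b hb hba haR
  · rw [abs_sub_comm (a ^ q), abs_sub_comm a,
      abs_of_nonneg (sub_nonneg.mpr (Real.rpow_le_rpow ha hab (by linarith))),
      abs_of_nonneg (sub_nonneg.mpr hab)]
    exact key b a ha hab hbR

/-- Dimension reduction for incompressible families: the final statement, from the finite case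
`hA` (pool job INC-A, `incomp_fin`) and the reduction of simple functions `hB` (pool job INC-B,
`simple_dom`). -/
theorem incompressible_of {α : Type*} [MeasurableSpace α] (μ : Measure α) (p : ENNReal)
    [Fact (1 ≤ p)] (hp : p ≠ ⊤)
    (hA : ∀ (q : ℝ), 1 ≤ q → ∀ (m n : ℕ), 2 ≤ n → ∀ (x : Fin n → Fin m → ℝ) (M : Fin m → ℝ),
      (∀ i k, |x i k| ≤ M k) → ∀ K : ℝ, 0 ≤ K → ∑ k, M k ^ q ≤ K ^ q →
      ∀ ε : ℝ, 0 < ε → ε < (2 * K) ^ q →
      ∃ (d : ℕ) (y : Fin n → Fin d → ℝ),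
        (d : ℝ) ≤ 128 * (2 * K) ^ (2 * q) * Real.log n / ε ^ 2 + 1 ∧
        ∀ i j, |∑ l, |y i l - y j l| ^ q - ∑ k, |x i k - x j k| ^ q| ≤ ε)
    (hB : ∀ (n : ℕ) (s : Fin n → Lp.simpleFunc ℝ p μ) (h : α → ℝ),
      (∀ i, ∀ᵐ a ∂μ, |(s i : Lp ℝ p μ) a| ≤ h a) → ∀ K : ℝ, 0 ≤ K →
      eLpNorm h p μ ≤ ENNReal.ofReal K →
      ∃ (m : ℕ) (x : Fin n → Fin m → ℝ) (M : Fin m → ℝ),
        (∀ i k, |x i k| ≤ M k) ∧ ∑ k, M k ^ p.toReal ≤ K ^ p.toReal ∧
        ∀ i j, ∑ k, |x i k - x j k| ^ p.toReal =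
          dist (s i : Lp ℝ p μ) (s j : Lp ℝ p μ) ^ p.toReal)
    (K ε : ℝ) (hε : 0 < ε) (n : ℕ) (f : Fin n → Lp ℝ p μ) (g : Lp ℝ p μ)
    (hfg : ∀ i, ∀ᵐ a ∂μ, |f i a| ≤ g a) (hg : ‖g‖ ≤ K) :
    ∃ (d : ℕ) (y : Fin n → PiLp p (fun _ : Fin d => ℝ)),
      (d : ℝ) ≤ 170 * (2 * K) ^ (2 * p.toReal) * Real.log n / ε ^ 2 ∧
      ∀ i j, |dist (y i) (y j) ^ p.toReal - dist (f i) (f j) ^ p.toReal| ≤ ε := by
  classical
  have hp1 : (1 : ENNReal) ≤ p := Fact.out
  have hq1 : 1 ≤ p.toReal := by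
    have := ENNReal.toReal_mono hp hp1
    simpa using this
  obtain ⟨q, hqdef⟩ : ∃ q : ℝ, q = p.toReal := ⟨_, rfl⟩
  rw [← hqdef] at hq1 ⊢
  have hq0 : 0 < q := by linarith
  have hK0 : 0 ≤ K := le_trans (norm_nonneg g) hg
  have hfnorm : ∀ i, ‖f i‖ ≤ K := fun i => le_trans (Lp.norm_le_norm_of_ae_le (by
    filter_upwards [hfg i] with a ha
    rw [Real.norm_eq_abs, Real.norm_eq_abs]
    exact le_trans ha (le_abs_self _))) hg
  have hdist : ∀ i j, dist (f i) (f j) ≤ 2 * K := by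
    intro i j
    rw [dist_eq_norm]
    have h1 := norm_sub_le (f i) (f j)
    have h2 := hfnorm i
    have h3 := hfnorm j
    linarith
  have hlogn : 0 ≤ Real.log n := Real.log_natCast_nonneg n
  have h2K : 0 ≤ (2 * K) ^ (2 * q) := Real.rpow_nonneg (by linarith) _
  have hRHS0 : 0 ≤ 170 * (2 * K) ^ (2 * q) * Real.log n / ε ^ 2 := by positivity
  -- trivial cases
  by_cases htriv : n ≤ 1 ∨ (2 * K) ^ q ≤ ε
  · refine ⟨0, fun _ => 0, by simpa using hRHS0, fun i j => ?_⟩
    rw [dist_self, Real.zero_rpow hq0.ne', zero_sub, abs_neg,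
      abs_of_nonneg (Real.rpow_nonneg dist_nonneg _)]
    rcases htriv with h1 | h2
    · have hij : i = j := by
        apply Fin.ext
        have := i.isLt
        have := j.isLt
        omega
      rw [hij, dist_self, Real.zero_rpow hq0.ne']
      exact hε.le
    · exact le_trans (Real.rpow_le_rpow dist_nonneg (hdist i j) hq0.le) h2
  obtain ⟨hn1, hεK0⟩ := not_or.mp htriv
  have hεK : ε < (2 * K) ^ q := not_le.mp hεK0
  have hn : 2 ≤ n := by omega
  have hnr : (2 : ℝ) ≤ n := by exact_mod_cast hn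
  have hKpos : 0 < K := by
    rcases hK0.eq_or_lt with h0 | h0
    · rw [← h0, mul_zero, Real.zero_rpow hq0.ne'] at hεK
      linarith
    · exact h0
  -- the approximation parameter
  have h3K : 0 < (3 * K) ^ (q - 1) := Real.rpow_pos_of_pos (by linarith) _
  obtain ⟨η, hηdef⟩ : ∃ η : ℝ, η = min (K / (324 * q * n)) (ε / (18 * q * (3 * K) ^ (q - 1))) :=
    ⟨_, rfl⟩
  have hη0 : 0 < η := by
    rw [hηdef]
    exact lt_min (by positivity) (by positivity)
  have hη1 : η ≤ K / (324 * q * n) := by rw [hηdef]; exact min_le_left _ _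
  have hη2 : η ≤ ε / (18 * q * (3 * K) ^ (q - 1)) := by rw [hηdef]; exact min_le_right _ _
  have hnη : (n : ℝ) * η ≤ K / (324 * q) := by
    have h1 : (n : ℝ) * η ≤ n * (K / (324 * q * n)) :=
      mul_le_mul_of_nonneg_left hη1 (by linarith)
    have h2 : (n : ℝ) * (K / (324 * q * n)) = K / (324 * q) := by
      field_simp
    linarith
  have hnηK : (n : ℝ) * η ≤ K / 324 := by
    refine le_trans hnη ?_
    apply div_le_div_of_nonneg_left hKpos.le (by norm_num)
    linarith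
  have hηK : 2 * η ≤ K := by
    have : 2 * η ≤ (n : ℝ) * η := mul_le_mul_of_nonneg_right hnr hη0.le
    linarith
  have hqη : q * (3 * K) ^ (q - 1) * (2 * η) ≤ ε / 9 := by
    have h1 : q * (3 * K) ^ (q - 1) * (2 * η) ≤
        q * (3 * K) ^ (q - 1) * (2 * (ε / (18 * q * (3 * K) ^ (q - 1)))) :=
      mul_le_mul_of_nonneg_left (by linarith) (by positivity)
    have h2 : q * (3 * K) ^ (q - 1) * (2 * (ε / (18 * q * (3 * K) ^ (q - 1)))) = ε / 9 := by
      field_simp
      ring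
    linarith
  -- simple functions close to the points
  have hdense : ∀ F : Lp ℝ p μ, ∃ s : Lp.simpleFunc ℝ p μ, dist F (s : Lp ℝ p μ) < η := by
    intro F
    obtain ⟨s, hs⟩ := (Lp.simpleFunc.denseRange (E := ℝ) (μ := μ) hp).exists_dist_lt F hη0
    exact ⟨s, hs⟩
  choose s0 hs0 using hdense
  obtain ⟨s, hsdef⟩ : ∃ s : Fin n → Lp.simpleFunc ℝ p μ, s = fun i => s0 (f i) := ⟨_, rfl⟩
  have hs : ∀ i, dist (f i) (s i : Lp ℝ p μ) < η := by
    intro i
    rw [hsdef]
    exact hs0 (f i)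
  -- the dominating function
  obtain ⟨H, hHdef⟩ : ∃ H : Lp ℝ p μ, H = g + ∑ i, |(s i : Lp ℝ p μ) - f i| := ⟨_, rfl⟩
  have hHnorm : ‖H‖ ≤ K + n * η := by
    rw [hHdef]
    refine le_trans (norm_add_le _ _) (add_le_add hg ?_)
    refine le_trans (norm_sum_le _ _) ?_
    have h1 : ∀ i ∈ (Finset.univ : Finset (Fin n)), ‖|(s i : Lp ℝ p μ) - f i|‖ ≤ η := by
      intro i _
      rw [norm_abs_eq_norm, ← dist_eq_norm, dist_comm]
      exact (hs i).le
    have h2 := Finset.sum_le_sum h1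
    rw [Finset.sum_const, Finset.card_univ, Fintype.card_fin, nsmul_eq_mul] at h2
    exact h2
  have hHord : ∀ i, |(s i : Lp ℝ p μ)| ≤ H := by
    intro i
    have h1 : |(s i : Lp ℝ p μ)| ≤ |f i| + |(s i : Lp ℝ p μ) - f i| := by
      have h := abs_add_le (f i) ((s i : Lp ℝ p μ) - f i)
      rwa [add_sub_cancel] at h
    have h2 : |f i| ≤ g := by
      rw [← Lp.coeFn_le]
      filter_upwards [Lp.coeFn_abs (f i), hfg i] with a ha1 ha2
      rw [ha1]
      exact ha2
    have h3 : |(s i : Lp ℝ p μ) - f i| ≤ ∑ j, |(s j : Lp ℝ p μ) - f j| :=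
      Finset.single_le_sum (f := fun j => |(s j : Lp ℝ p μ) - f j|)
        (fun j _ => abs_nonneg _) (Finset.mem_univ i)
    rw [hHdef]
    exact le_trans h1 (add_le_add h2 h3)
  have hHae : ∀ i, ∀ᵐ a ∂μ, |(s i : Lp ℝ p μ) a| ≤ H a := by
    intro i
    have h1 := (Lp.coeFn_le _ _).mpr (hHord i)
    filter_upwards [h1, Lp.coeFn_abs (s i : Lp ℝ p μ)] with a ha1 ha2
    rw [← ha2]
    exact ha1
  have hHe : eLpNorm H p μ ≤ ENNReal.ofReal (K + n * η) := by
    have h1 : eLpNorm H p μ = ENNReal.ofReal ‖H‖ := by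
      rw [Lp.norm_def, ENNReal.ofReal_toReal (Lp.eLpNorm_ne_top H)]
    rw [h1]
    exact ENNReal.ofReal_le_ofReal hHnorm
  obtain ⟨K', hK'def⟩ : ∃ K' : ℝ, K' = K + n * η := ⟨_, rfl⟩
  have hK'K : K ≤ K' := by rw [hK'def]; nlinarith
  have hK'0 : 0 ≤ K' := le_trans hK0 hK'K
  rw [← hK'def] at hHe
  obtain ⟨m, x, M, hxM, hMK, hxd⟩ := hB n s H hHae K' hK'0 hHe
  rw [← hqdef] at hMK hxd
  have hε' : 0 < 8 * ε / 9 := by positivity
  have hε'K : 8 * ε / 9 < (2 * K') ^ q := by
    have h1 : (2 * K) ^ q ≤ (2 * K') ^ q :=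
      Real.rpow_le_rpow (by linarith) (by linarith) hq0.le
    linarith
  obtain ⟨d, y, hd, hy⟩ := hA q hq1 m n hn x M hxM K' hK'0 hMK (8 * ε / 9) hε' hε'K
  refine ⟨d, fun i => WithLp.toLp p (y i), ?_, fun i j => ?_⟩
  · -- the dimension bound
    have ht : K' = K * (1 + n * η / K) := by
      rw [hK'def]
      field_simp
    have ht0 : 0 ≤ (n : ℝ) * η / K := by positivity
    have ht1 : (n : ℝ) * η / K ≤ 1 / (324 * q) := by
      rw [div_le_iff₀ hKpos]
      have : 1 / (324 * q) * K = K / (324 * q) := by ring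
      rw [this]
      exact hnη
    have h1 : (1 + (n : ℝ) * η / K) ^ (2 * q) ≤ 82 / 81 := by
      have h2 : 1 + (n : ℝ) * η / K ≤ Real.exp ((n : ℝ) * η / K) := by
        have := Real.add_one_le_exp ((n : ℝ) * η / K)
        linarith
      have h3 : (1 + (n : ℝ) * η / K) ^ (2 * q) ≤ Real.exp ((n : ℝ) * η / K) ^ (2 * q) :=
        Real.rpow_le_rpow (by linarith) h2 (by linarith)
      have h4 : Real.exp ((n : ℝ) * η / K) ^ (2 * q) = Real.exp ((n : ℝ) * η / K * (2 * q)) :=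
        (Real.exp_mul _ _).symm
      have h5 : (n : ℝ) * η / K * (2 * q) ≤ 1 / 162 := by
        have h6 : (n : ℝ) * η / K * (2 * q) ≤ 1 / (324 * q) * (2 * q) :=
          mul_le_mul_of_nonneg_right ht1 (by linarith)
        have h7 : 1 / (324 * q) * (2 * q) = 1 / 162 := by
          field_simp
          norm_num
        linarith
      have h6 : Real.exp ((n : ℝ) * η / K * (2 * q)) ≤ Real.exp (1 / 162) :=
        Real.exp_le_exp.mpr h5
      have h7 : Real.exp (1 / 162) ≤ 82 / 81 := by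
        have h8 := Real.add_one_le_exp (-(1 / 162) : ℝ)
        have h9 : Real.exp (-(1 / 162) : ℝ) * Real.exp (1 / 162) = 1 := by
          rw [← Real.exp_add]
          simp
        have h10 : 0 < Real.exp (1 / 162 : ℝ) := Real.exp_pos _
        nlinarith
      rw [h4] at h3
      linarith
    have h2 : (2 * K') ^ (2 * q) ≤ (2 * K) ^ (2 * q) * (82 / 81) := by
      have e : 2 * K' = 2 * K * (1 + n * η / K) := by rw [ht]; ring
      rw [e, Real.mul_rpow (by linarith) (by linarith)]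
      exact mul_le_mul_of_nonneg_left h1 h2K
    obtain ⟨A, hAdef⟩ : ∃ A : ℝ, A = (2 * K) ^ (2 * q) * Real.log n / ε ^ 2 := ⟨_, rfl⟩
    have hlog2 : (1 / 2 : ℝ) ≤ Real.log n := by
      have h3 : Real.log 2 ≤ Real.log n := Real.log_le_log (by norm_num) hnr
      have h4 := Real.log_two_gt_d9
      linarith
    have hA1 : 1 / 2 ≤ A := by
      have h3 : ε ^ 2 ≤ (2 * K) ^ (2 * q) := by
        have h4 : (2 * K) ^ (2 * q) = ((2 * K) ^ q) ^ 2 := by
          rw [← Real.rpow_natCast, ← Real.rpow_mul (by linarith)]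
          congr 1
          push_cast
          ring
        rw [h4]
        exact pow_le_pow_left₀ hε.le hεK.le 2
      have hε2 : 0 < ε ^ 2 := by positivity
      rw [hAdef, le_div_iff₀ hε2]
      have h5 : ε ^ 2 * (1 / 2) ≤ (2 * K) ^ (2 * q) * Real.log n :=
        mul_le_mul h3 hlog2 (by norm_num) h2K
      linarith
    have h3 : 128 * (2 * K') ^ (2 * q) * Real.log n / (8 * ε / 9) ^ 2 ≤ 164 * A := by
      have hε2 : 0 < ε ^ 2 := by positivity
      have e1 : 128 * (2 * K') ^ (2 * q) * Real.log n / (8 * ε / 9) ^ 2 =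
          162 * ((2 * K') ^ (2 * q) * (Real.log n / ε ^ 2)) := by
        field_simp
        ring
      have e2 : 164 * A = 162 * ((2 * K) ^ (2 * q) * (82 / 81) * (Real.log n / ε ^ 2)) := by
        rw [hAdef]
        ring
      rw [e1, e2]
      apply mul_le_mul_of_nonneg_left _ (by norm_num)
      exact mul_le_mul_of_nonneg_right h2 (by positivity)
    have e3 : 170 * (2 * K) ^ (2 * q) * Real.log n / ε ^ 2 = 170 * A := by
      rw [hAdef]
      ring
    rw [e3]
    linarith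
  · -- the distances
    have hp0 : 0 < p.toReal := by rw [← hqdef]; exact hq0
    have e1 : dist (WithLp.toLp p (y i) : PiLp p (fun _ : Fin d => ℝ)) (WithLp.toLp p (y j)) ^ q
        = ∑ l, |y i l - y j l| ^ q := by
      rw [PiLp.dist_eq_sum hp0, ← hqdef, one_div,
        Real.rpow_inv_rpow (Finset.sum_nonneg fun l _ => Real.rpow_nonneg dist_nonneg _) hq0.ne']
      exact Finset.sum_congr rfl fun l _ => by rw [Real.dist_eq]
    rw [e1]
    have h1 := hy i j
    rw [hxd i j] at h1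
    have ha0 : 0 ≤ dist (s i : Lp ℝ p μ) (s j : Lp ℝ p μ) := dist_nonneg
    have hb0 : 0 ≤ dist (f i) (f j) := dist_nonneg
    have hab : |dist (s i : Lp ℝ p μ) (s j : Lp ℝ p μ) - dist (f i) (f j)| ≤ 2 * η := by
      have h2 := dist_dist_dist_le (s i : Lp ℝ p μ) (s j : Lp ℝ p μ) (f i) (f j)
      rw [Real.dist_eq] at h2
      have h3 := hs i
      have h4 := hs j
      rw [dist_comm] at h3 h4
      linarith
    have hbR : dist (f i) (f j) ≤ 3 * K := by
      have := hdist i j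
      linarith
    have haR : dist (s i : Lp ℝ p μ) (s j : Lp ℝ p μ) ≤ 3 * K := by
      have h2 := (abs_le.mp hab).2
      have := hdist i j
      linarith
    have h2 := abs_rpow_sub_rpow_le _ _ q (3 * K) ha0 hb0 hq1 haR hbR
    have h3 : q * (3 * K) ^ (q - 1) * |dist (s i : Lp ℝ p μ) (s j : Lp ℝ p μ) - dist (f i) (f j)|
        ≤ q * (3 * K) ^ (q - 1) * (2 * η) :=
      mul_le_mul_of_nonneg_left hab (by positivity)
    have h4 : |∑ l, |y i l - y j l| ^ q - dist (f i) (f j) ^ q| ≤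
        |∑ l, |y i l - y j l| ^ q - dist (s i : Lp ℝ p μ) (s j : Lp ℝ p μ) ^ q| +
          |dist (s i : Lp ℝ p μ) (s j : Lp ℝ p μ) ^ q - dist (f i) (f j) ^ q| :=
      abs_sub_le _ _ _
    linarith

end Vale.Agent.Lib.P249.H59i
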