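import Mathlib

/-!
# P249: a weighted nearest-neighbour graph dominating all pair ratios

For a finite pseudometric space `(X, d)` with `n` points and `p ≥ 1` we construct weights
`φ ≥ 0` on ordered pairs with every row sum at most one (so total weight at most `n`) such that for
every `g : X → ℝ` (constant on pairs at distance zero) and all `i j`:
`|g i - g j|^p ≤ C^p * d i j ^ p * ∑ x y, φ x y * (|g x - g y|^p / d x y ^ p)`.
-/

namespace Vale.Agent.Lib.P249.H59

open Finset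

section NN

variable {X : Type*} [Fintype X] [DecidableEq X]

/-- A set of `min K n` nearest neighbours of `x`. -/
theorem exists_nn_one (d : X → X → ℝ) (x : X) (K : ℕ) :
    ∃ A : Finset X, A.card = min K (Fintype.card X) ∧
      ∀ y z, y ∉ A → z ∈ A → d x z ≤ d x y := by
  classical
  have hne : (Finset.powersetCard (min K (Fintype.card X)) (Finset.univ : Finset X)).Nonempty := by
    apply Finset.powersetCard_nonempty.mpr
    simp [Finset.card_univ]
  obtain ⟨A, hA, hmin⟩ := Finset.exists_min_image _ (fun A : Finset X => ∑ z ∈ A, d x z) hne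
  rw [Finset.mem_powersetCard] at hA
  refine ⟨A, hA.2, ?_⟩
  intro y z hy hz
  by_contra hlt
  rw [not_le] at hlt
  have hy' : y ∉ A.erase z := fun h => hy (Finset.mem_of_mem_erase h)
  have hA' : insert y (A.erase z) ∈
      Finset.powersetCard (min K (Fintype.card X)) (Finset.univ : Finset X) := by
    rw [Finset.mem_powersetCard]
    refine ⟨Finset.subset_univ _, ?_⟩
    rw [Finset.card_insert_of_notMem hy', Finset.card_erase_of_mem hz, ← hA.2]
    have : 0 < A.card := Finset.card_pos.mpr ⟨z, hz⟩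
    omega
  have h1 := hmin _ hA'
  rw [Finset.sum_insert hy'] at h1
  have h2 : ∑ z' ∈ A.erase z, d x z' + d x z = ∑ z' ∈ A, d x z' := Finset.sum_erase_add _ _ hz
  linarith

/-- Nearest-neighbour sets of every size around every point. -/
theorem exists_nn (d : X → X → ℝ) :
    ∃ S : X → ℕ → Finset X,
      (∀ x K, (S x K).card = min K (Fintype.card X)) ∧
      (∀ x K y z, y ∉ S x K → z ∈ S x K → d x z ≤ d x y) := by
  choose S h1 h2 using fun x K => exists_nn_one d x K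
  exact ⟨S, h1, h2⟩

/-- The weights: level `l + 1` gives weight `(2L)^-(l+1)` to each of the `L^(l+1)` nearest
neighbours. -/
noncomputable def phi (S : X → ℕ → Finset X) (L : ℕ) (x y : X) : ℝ :=
  ∑ l ∈ Finset.range (Fintype.card X),
    (1 / (2 * (L : ℝ))) ^ (l + 1) * (if y ∈ S x (L ^ (l + 1)) then 1 else 0)

theorem phi_nonneg (S : X → ℕ → Finset X) (L : ℕ) (x y : X) : 0 ≤ phi S L x y := by
  unfold phi
  refine Finset.sum_nonneg fun l _ => ?_
  split_ifs
  · positivity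
  · simp

theorem phi_ge (S : X → ℕ → Finset X) (L : ℕ) (x y : X) (l : ℕ) (hl : l < Fintype.card X)
    (hy : y ∈ S x (L ^ (l + 1))) : (1 / (2 * (L : ℝ))) ^ (l + 1) ≤ phi S L x y := by
  unfold phi
  have h := Finset.single_le_sum
    (f := fun l => (1 / (2 * (L : ℝ))) ^ (l + 1) * (if y ∈ S x (L ^ (l + 1)) then (1 : ℝ) else 0))
    (s := Finset.range (Fintype.card X)) (fun l _ => by
      split_ifs
      · positivity
      · simp) (Finset.mem_range.mpr hl)
  simp only [if_pos hy, mul_one] at h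
  exact h

theorem geom_half_succ (n : ℕ) : ∑ l ∈ Finset.range n, (1 / 2 : ℝ) ^ (l + 1) = 1 - (1 / 2) ^ n := by
  induction n with
  | zero => simp
  | succ n ih => rw [Finset.sum_range_succ, ih]; ring

theorem geom_half (n : ℕ) : ∑ l ∈ Finset.range n, (1 / 2 : ℝ) ^ l = 2 - 2 * (1 / 2) ^ n := by
  induction n with
  | zero => simp
  | succ n ih => rw [Finset.sum_range_succ, ih]; ring

theorem phi_row_sum (S : X → ℕ → Finset X)
    (hS : ∀ x K, (S x K).card = min K (Fintype.card X)) (L : ℕ) (hL : 1 ≤ L) (x : X) :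
    ∑ y, phi S L x y ≤ 1 := by
  unfold phi
  rw [Finset.sum_comm]
  have hL0 : (0 : ℝ) < L := by exact_mod_cast hL
  calc ∑ l ∈ Finset.range (Fintype.card X), ∑ y,
          (1 / (2 * (L : ℝ))) ^ (l + 1) * (if y ∈ S x (L ^ (l + 1)) then (1 : ℝ) else 0)
      = ∑ l ∈ Finset.range (Fintype.card X),
          (1 / (2 * (L : ℝ))) ^ (l + 1) * ((S x (L ^ (l + 1))).card : ℝ) := by
        refine Finset.sum_congr rfl fun l _ => ?_
        rw [← Finset.mul_sum]
        congr 1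
        simp
    _ ≤ ∑ l ∈ Finset.range (Fintype.card X), (1 / 2 : ℝ) ^ (l + 1) := by
        refine Finset.sum_le_sum fun l _ => ?_
        rw [hS]
        have h1 : ((min (L ^ (l + 1)) (Fintype.card X) : ℕ) : ℝ) ≤ (L : ℝ) ^ (l + 1) := by
          exact_mod_cast min_le_left _ _
        have h2 : (1 / (2 * (L : ℝ))) ^ (l + 1) * (L : ℝ) ^ (l + 1) = (1 / 2 : ℝ) ^ (l + 1) := by
          rw [← mul_pow]
          congr 1
          field_simp
        rw [← h2]
        exact mul_le_mul_of_nonneg_left h1 (by positivity)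
    _ ≤ 1 := by
        rw [geom_half_succ]
        have : (0 : ℝ) ≤ (1 / 2) ^ Fintype.card X := by positivity
        linarith

end NN

section Jensen

/-- Jensen for `t ↦ |t|^p` and a probability vector. -/
theorem jensen_abs {ι : Type*} (s : Finset ι) (w a : ι → ℝ) (hw : ∀ i ∈ s, 0 ≤ w i)
    (hw1 : ∑ i ∈ s, w i = 1) {p : ℝ} (hp : 1 ≤ p) :
    |∑ i ∈ s, w i * a i| ^ p ≤ ∑ i ∈ s, w i * |a i| ^ p := by
  have h1 : |∑ i ∈ s, w i * a i| ≤ ∑ i ∈ s, w i * |a i| := by
    refine (Finset.abs_sum_le_sum_abs _ _).trans (Finset.sum_le_sum fun i hi => ?_)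
    rw [abs_mul, abs_of_nonneg (hw i hi)]
  have h2 := Real.rpow_arith_mean_le_arith_mean_rpow s w (fun i => |a i|) hw hw1
    (fun i _ => abs_nonneg _) hp
  exact (Real.rpow_le_rpow (abs_nonneg _) h1 (by linarith)).trans h2

variable {X : Type*} [Fintype X] [DecidableEq X]

omit [DecidableEq X] in
/-- A probability vector `w` on pairs, supported on pairs at distance at most `D` and dominated
by `A * φ`, transports `g` at cost at most `A * D^p * T`. -/
theorem pair_bound (d : X → X → ℝ) (hnn : ∀ x y, 0 ≤ d x y) (φ : X → X → ℝ)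
    (hφ : ∀ x y, 0 ≤ φ x y) (g : X → ℝ) (hg : ∀ x y, d x y = 0 → g x = g y) {p : ℝ}
    (hp : 1 ≤ p) (w : X → X → ℝ) (hw : ∀ x y, 0 ≤ w x y) (hw1 : ∑ x, ∑ y, w x y = 1)
    (A D : ℝ) (hA : 0 ≤ A) (hD : 0 ≤ D)
    (hsupp : ∀ x y, w x y ≠ 0 → d x y ≤ D ∧ w x y ≤ A * φ x y) :
    |∑ x, ∑ y, w x y * (g x - g y)| ^ p ≤
      A * D ^ p * ∑ x, ∑ y, φ x y * (|g x - g y| ^ p / d x y ^ p) := by
  have hJ := jensen_abs (Finset.univ : Finset (X × X)) (fun z => w z.1 z.2)
    (fun z => g z.1 - g z.2) (fun z _ => hw _ _) (by rw [← hw1, Fintype.sum_prod_type]) hp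
  rw [Fintype.sum_prod_type, Fintype.sum_prod_type] at hJ
  refine hJ.trans ?_
  rw [Finset.mul_sum]
  refine Finset.sum_le_sum fun x _ => ?_
  rw [Finset.mul_sum]
  refine Finset.sum_le_sum fun y _ => ?_
  have hDp0 : 0 ≤ D ^ p := Real.rpow_nonneg hD p
  have hG : 0 ≤ |g x - g y| ^ p := Real.rpow_nonneg (abs_nonneg _) p
  by_cases hw0 : w x y = 0
  · rw [hw0, zero_mul]
    have h1 := hφ x y
    have h2 : 0 ≤ |g x - g y| ^ p / d x y ^ p :=
      div_nonneg hG (Real.rpow_nonneg (hnn x y) p)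
    positivity
  obtain ⟨hd, hwA⟩ := hsupp x y hw0
  rcases (hnn x y).eq_or_lt with h0 | hpos
  · have h1 : g x = g y := hg x y h0.symm
    rw [h1, sub_self, abs_zero, Real.zero_rpow (by linarith), mul_zero]
    simp
  · have hdp : 0 < d x y ^ p := Real.rpow_pos_of_pos hpos p
    have hDp : d x y ^ p ≤ D ^ p := Real.rpow_le_rpow hpos.le hd (by linarith)
    have hq : 0 ≤ |g x - g y| ^ p / d x y ^ p := div_nonneg hG hdp.le
    have h1 := hφ x y
    calc w x y * |g x - g y| ^ p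
        = w x y * (d x y ^ p * (|g x - g y| ^ p / d x y ^ p)) := by
          field_simp
      _ ≤ (A * φ x y) * (D ^ p * (|g x - g y| ^ p / d x y ^ p)) :=
          mul_le_mul hwA (mul_le_mul_of_nonneg_right hDp hq) (by positivity) (by positivity)
      _ = A * D ^ p * (φ x y * (|g x - g y| ^ p / d x y ^ p)) := by ring

end Jensen

section Walk

variable {X : Type*} [Fintype X] [DecidableEq X]

/-- If some `y0` near `j` is not among the `K` nearest neighbours of some `x0` near `i`, then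
`K < n` and the `K` nearest neighbours of every point near `i` or `j` are close. -/
theorem claim1 (d : X → X → ℝ) (hsymm : ∀ x y, d x y = d y x)
    (htri : ∀ x y z, d x z ≤ d x y + d y z) (S : X → ℕ → Finset X)
    (hcard : ∀ x K, (S x K).card = min K (Fintype.card X))
    (hnear : ∀ x K y z, y ∉ S x K → z ∈ S x K → d x z ≤ d x y)
    (K : ℕ) (i j : X) (s : ℝ) (x0 y0 : X) (hx0 : d i x0 ≤ s) (hy0 : d j y0 ≤ s)
    (hnot : y0 ∉ S x0 K) :
    K < Fintype.card X ∧
      ∀ z, (d i z ≤ s ∨ d j z ≤ s) → ∀ w ∈ S z K, d z w ≤ 4 * s + 2 * d i j := by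
  have hK : K < Fintype.card X := by
    by_contra hge
    rw [not_lt] at hge
    have h1 : (S x0 K).card = Fintype.card X := by rw [hcard, min_eq_right hge]
    have h2 : S x0 K = Finset.univ := (Finset.card_eq_iff_eq_univ _).mp h1
    exact hnot (h2 ▸ Finset.mem_univ y0)
  refine ⟨hK, ?_⟩
  have hcardK : ∀ x, (S x K).card = K := fun x => by rw [hcard, min_eq_left hK.le]
  intro z hz w hw
  by_contra hlt
  rw [not_le] at hlt
  have hx0y0 : d x0 y0 ≤ 2 * s + d i j := by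
    have h1 := htri x0 i y0
    have h2 := htri i j y0
    have h3 := hsymm x0 i
    linarith
  have hzx0 : d z x0 ≤ 2 * s + d i j := by
    rcases hz with hz | hz
    · have h1 := htri z i x0
      have h2 := hsymm z i
      have h3 : 0 ≤ d i j := by
        have h4 := htri i j i
        have h5 := htri i i i
        have h6 := hsymm i j
        linarith
      linarith
    · have h1 := htri z j x0
      have h2 := hsymm z j
      have h3 := htri j i x0
      have h4 := hsymm j i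
      linarith
  have hsub : S x0 K ⊆ (S z K).erase w := by
    intro u hu
    have h1 : d x0 u ≤ d x0 y0 := hnear x0 K y0 u hnot hu
    have h2 := htri z x0 u
    have h3 : d z u < d z w := by linarith
    have hne : u ≠ w := fun h => by rw [h] at h3; exact lt_irrefl _ h3
    have hmem : u ∈ S z K := by
      by_contra hnm
      have := hnear z K u w hnm hw
      linarith
    exact Finset.mem_erase.mpr ⟨hne, hmem⟩
  have h1 := Finset.card_le_card hsub
  rw [Finset.card_erase_of_mem hw, hcardK, hcardK] at h1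
  have h2 : 0 < K := by
    have := hcardK z
    have h3 : 0 < (S z K).card := Finset.card_pos.mpr ⟨w, hw⟩
    omega
  omega

/-- The nearest-neighbour walk started at `c`. -/
noncomputable def mu (S : X → ℕ → Finset X) (L : ℕ) (c : X) : ℕ → X → ℝ
  | 0 => fun y => if y = c then 1 else 0
  | (k + 1) => fun y =>
      ∑ x, mu S L c k x * (if y ∈ S x (L ^ (k + 1)) then ((L : ℝ) ^ (k + 1))⁻¹ else 0)

/-- The radii. -/
noncomputable def sig (ρ : ℝ) (k : ℕ) : ℝ := ρ * ((5 : ℝ) ^ k - 1) / 2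

theorem sig_zero (ρ : ℝ) : sig ρ 0 = 0 := by simp [sig]

theorem sig_succ (ρ : ℝ) (k : ℕ) : sig ρ (k + 1) = sig ρ k + (4 * sig ρ k + 2 * ρ) := by
  unfold sig
  rw [pow_succ]
  ring

theorem sig_nonneg (ρ : ℝ) (hρ : 0 ≤ ρ) (k : ℕ) : 0 ≤ sig ρ k := by
  unfold sig
  have : (1 : ℝ) ≤ 5 ^ k := one_le_pow₀ (by norm_num)
  have h2 : 0 ≤ (5 : ℝ) ^ k - 1 := by linarith
  positivity

theorem four_sig (ρ : ℝ) (k : ℕ) : 4 * sig ρ k + 2 * ρ = 2 * ρ * 5 ^ k := by
  unfold sig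
  ring

theorem two_sig (ρ : ℝ) (k : ℕ) : 2 * sig ρ k + ρ = ρ * 5 ^ k := by
  unfold sig
  ring

/-- The not-large hypothesis at level `k`. -/
def NotLarge (d : X → X → ℝ) (S : X → ℕ → Finset X) (L : ℕ) (i j : X) (k : ℕ) : Prop :=
  ∃ x0 y0, d i x0 ≤ sig (d i j) k ∧ d j y0 ≤ sig (d i j) k ∧ y0 ∉ S x0 (L ^ (k + 1))

theorem sum_ite_mem_inv (A : Finset X) (c : ℝ) :
    ∑ y, (if y ∈ A then c else 0) = (A.card : ℝ) * c := by
  rw [← Finset.sum_filter]
  simp

/-- Properties of the walk below the first large level. -/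
theorem mu_props (d : X → X → ℝ) (hd0 : ∀ x, d x x = 0) (hsymm : ∀ x y, d x y = d y x)
    (_hnn : ∀ x y, 0 ≤ d x y) (htri : ∀ x y z, d x z ≤ d x y + d y z) (S : X → ℕ → Finset X)
    (hcard : ∀ x K, (S x K).card = min K (Fintype.card X))
    (hnear : ∀ x K y z, y ∉ S x K → z ∈ S x K → d x z ≤ d x y)
    (L : ℕ) (hL : 1 ≤ L) (i j c : X) (hc : c = i ∨ c = j) (k : ℕ)
    (hnot : ∀ k' < k, NotLarge d S L i j k') :
    (∀ x, 0 ≤ mu S L c k x) ∧ ∑ x, mu S L c k x = 1 ∧
      (∀ x, mu S L c k x ≠ 0 → d c x ≤ sig (d i j) k) ∧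
      (∀ x, mu S L c k x ≤ ((L : ℝ) ^ k)⁻¹) := by
  have hL0 : (0 : ℝ) < L := by exact_mod_cast hL
  induction k with
  | zero =>
    refine ⟨fun x => ?_, ?_, fun x hx => ?_, fun x => ?_⟩
    · simp only [mu]; split_ifs <;> norm_num
    · simp [mu]
    · simp only [mu] at hx
      have : x = c := by
        by_contra h
        exact hx (if_neg h)
      rw [this, hd0, sig_zero]
    · simp only [mu]; split_ifs <;> norm_num
  | succ k ih =>
    obtain ⟨ih0, ih1, ihs, ihb⟩ := ih (fun k' hk' => hnot k' (Nat.lt_succ_of_lt hk'))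
    obtain ⟨x0, y0, hx0, hy0, hy0S⟩ := hnot k (Nat.lt_succ_self k)
    obtain ⟨hK, hrad⟩ := claim1 d hsymm htri S hcard hnear (L ^ (k + 1)) i j (sig (d i j) k)
      x0 y0 hx0 hy0 hy0S
    have hcardK : ∀ x, ((S x (L ^ (k + 1))).card : ℝ) = (L : ℝ) ^ (k + 1) := fun x => by
      rw [hcard, min_eq_left hK.le]
      push_cast
      rfl
    have hpos : (0 : ℝ) < (L : ℝ) ^ (k + 1) := by positivity
    have hnear_c : ∀ x, d c x ≤ sig (d i j) k → d i x ≤ sig (d i j) k ∨ d j x ≤ sig (d i j) k := by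
      intro x hx
      rcases hc with h | h
      · left; rw [h] at hx; exact hx
      · right; rw [h] at hx; exact hx
    refine ⟨fun y => ?_, ?_, fun y hy => ?_, fun y => ?_⟩
    · simp only [mu]
      refine Finset.sum_nonneg fun x _ => mul_nonneg (ih0 x) ?_
      split_ifs
      · positivity
      · exact le_refl _
    · simp only [mu]
      rw [Finset.sum_comm]
      have : ∀ x, ∑ y, mu S L c k x *
          (if y ∈ S x (L ^ (k + 1)) then ((L : ℝ) ^ (k + 1))⁻¹ else 0) = mu S L c k x := by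
        intro x
        rw [← Finset.mul_sum, sum_ite_mem_inv, hcardK, mul_inv_cancel₀ hpos.ne', mul_one]
      rw [Finset.sum_congr rfl (fun x _ => this x), ih1]
    · simp only [mu] at hy
      obtain ⟨x, -, hx⟩ := Finset.exists_ne_zero_of_sum_ne_zero hy
      have hx1 : mu S L c k x ≠ 0 := fun h => hx (by rw [h, zero_mul])
      have hx2 : y ∈ S x (L ^ (k + 1)) := by
        by_contra h
        exact hx (by rw [if_neg h, mul_zero])
      have h1 := ihs x hx1
      have h2 := hrad x (hnear_c x h1) y hx2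
      have h3 := htri c x y
      rw [sig_succ]
      linarith
    · simp only [mu]
      calc ∑ x, mu S L c k x * (if y ∈ S x (L ^ (k + 1)) then ((L : ℝ) ^ (k + 1))⁻¹ else 0)
          ≤ ∑ x, mu S L c k x * ((L : ℝ) ^ (k + 1))⁻¹ := by
            refine Finset.sum_le_sum fun x _ => mul_le_mul_of_nonneg_left ?_ (ih0 x)
            split_ifs
            · exact le_refl _
            · positivity
        _ = ((L : ℝ) ^ (k + 1))⁻¹ := by rw [← Finset.sum_mul, ih1, one_mul]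

end Walk

section Arith

theorem two_le_two_rpow (p : ℝ) (hp : 1 ≤ p) : (2 : ℝ) ≤ (2 : ℝ) ^ p := by
  calc (2 : ℝ) = (2 : ℝ) ^ (1 : ℝ) := (Real.rpow_one 2).symm
    _ ≤ (2 : ℝ) ^ p := Real.rpow_le_rpow_of_exponent_le (by norm_num) hp

theorem ten_rpow (p : ℝ) : (10 : ℝ) ^ p = (5 : ℝ) ^ p * (2 : ℝ) ^ p := by
  rw [← Real.mul_rpow (by norm_num) (by norm_num)]
  norm_num

theorem arith_step (p : ℝ) (hp : 1 ≤ p) (L : ℕ) (hL : 2 * (10 : ℝ) ^ p ≤ L) (ρ : ℝ) (hρ : 0 ≤ ρ)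
    (k : ℕ) :
    ((L : ℝ) ^ k)⁻¹ * 2 ^ (k + 1) * (2 * ρ * 5 ^ k) ^ p ≤ (4 * ρ * (1 / 2) ^ k) ^ p := by
  obtain ⟨a, ha⟩ : ∃ a : ℝ, a = (5 : ℝ) ^ p := ⟨_, rfl⟩
  obtain ⟨b, hb⟩ : ∃ b : ℝ, b = (2 : ℝ) ^ p := ⟨_, rfl⟩
  have hb2 : 2 ≤ b := hb ▸ two_le_two_rpow p hp
  have ha0 : 0 < a := ha ▸ Real.rpow_pos_of_pos (by norm_num) p
  have hb0 : 0 < b := by linarith
  have hL' : 2 * a * b ≤ (L : ℝ) := by
    rw [ten_rpow, ← ha, ← hb] at hL
    linarith
  have hLpos : (0 : ℝ) < L := by nlinarith [mul_pos ha0 hb0]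
  have hR : 0 ≤ ρ ^ p := Real.rpow_nonneg hρ p
  have e1 : (2 * ρ * 5 ^ k) ^ p = b * ρ ^ p * a ^ k := by
    rw [Real.mul_rpow (by positivity) (by positivity), Real.mul_rpow (by norm_num) hρ,
      ← Real.rpow_pow_comm (by norm_num), ← ha, ← hb]
  have e2 : (4 * ρ * (1 / 2) ^ k) ^ p = b * b * ρ ^ p * (b ^ k)⁻¹ := by
    rw [Real.mul_rpow (by positivity) (by positivity), Real.mul_rpow (by norm_num) hρ]
    have h4 : (4 : ℝ) ^ p = b * b := by
      rw [hb, ← Real.mul_rpow (by norm_num) (by norm_num)]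
      norm_num
    have hh : (((1 : ℝ) / 2) ^ k) ^ p = (b ^ k)⁻¹ := by
      rw [← Real.rpow_pow_comm (by norm_num), one_div, Real.inv_rpow (by norm_num), inv_pow, ← hb]
    rw [h4, hh]
  rw [e1, e2]
  have hY : (2 * a * b) ^ k ≤ (L : ℝ) ^ k := pow_le_pow_left₀ (by positivity) hL' k
  have hLk : (0 : ℝ) < (L : ℝ) ^ k := by positivity
  have hbk : (0 : ℝ) < b ^ k := by positivity
  have key : ((L : ℝ) ^ k)⁻¹ * (2 ^ k * a ^ k * b ^ k) ≤ 1 := by
    rw [inv_mul_le_iff₀ hLk, mul_one]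
    calc (2 : ℝ) ^ k * a ^ k * b ^ k = (2 * a * b) ^ k := by rw [mul_pow, mul_pow]
      _ ≤ _ := hY
  calc ((L : ℝ) ^ k)⁻¹ * 2 ^ (k + 1) * (b * ρ ^ p * a ^ k)
      = (((L : ℝ) ^ k)⁻¹ * (2 ^ k * a ^ k * b ^ k)) * (2 * b * ρ ^ p * (b ^ k)⁻¹) := by
        rw [pow_succ]
        field_simp
    _ ≤ 1 * (2 * b * ρ ^ p * (b ^ k)⁻¹) :=
        mul_le_mul_of_nonneg_right key (by positivity)
    _ ≤ b * b * ρ ^ p * (b ^ k)⁻¹ := by
        rw [one_mul]
        have h1 : 2 * b * ρ ^ p ≤ b * b * ρ ^ p := by nlinarith [mul_nonneg hb0.le hR]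
        exact mul_le_mul_of_nonneg_right h1 (by positivity)

theorem arith_meet (p : ℝ) (hp : 1 ≤ p) (L : ℕ) (hL : 2 * (10 : ℝ) ^ p ≤ L) (ρ : ℝ) (hρ : 0 ≤ ρ)
    (k : ℕ) :
    ((L : ℝ) ^ k)⁻¹ * ((L : ℝ) ^ k)⁻¹ * (2 * (L : ℝ)) ^ (k + 1) * (ρ * 5 ^ k) ^ p ≤
      ((2 * (L : ℝ)) ^ (1 / p) * ρ) ^ p := by
  obtain ⟨a, ha⟩ : ∃ a : ℝ, a = (5 : ℝ) ^ p := ⟨_, rfl⟩
  obtain ⟨b, hb⟩ : ∃ b : ℝ, b = (2 : ℝ) ^ p := ⟨_, rfl⟩
  have hb2 : 2 ≤ b := hb ▸ two_le_two_rpow p hp
  have ha0 : 0 < a := ha ▸ Real.rpow_pos_of_pos (by norm_num) p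
  have hb0 : 0 < b := by linarith
  have hL' : 2 * a ≤ (L : ℝ) := by
    rw [ten_rpow, ← ha, ← hb] at hL
    nlinarith
  have hLpos : (0 : ℝ) < L := by linarith
  have hp0 : p ≠ 0 := by linarith
  have hR : 0 ≤ ρ ^ p := Real.rpow_nonneg hρ p
  have e1 : (ρ * 5 ^ k) ^ p = ρ ^ p * a ^ k := by
    rw [Real.mul_rpow hρ (by positivity), ← Real.rpow_pow_comm (by norm_num), ← ha]
  have e2 : ((2 * (L : ℝ)) ^ (1 / p) * ρ) ^ p = 2 * (L : ℝ) * ρ ^ p := by
    rw [Real.mul_rpow (by positivity) hρ, ← Real.rpow_mul (by positivity), one_div,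
      inv_mul_cancel₀ hp0, Real.rpow_one]
  rw [e1, e2]
  have hY : (2 * a) ^ k ≤ (L : ℝ) ^ k := pow_le_pow_left₀ (by positivity) hL' k
  have hLk : (0 : ℝ) < (L : ℝ) ^ k := by positivity
  have key : ((L : ℝ) ^ k)⁻¹ * (2 ^ k * a ^ k) ≤ 1 := by
    rw [inv_mul_le_iff₀ hLk, mul_one]
    calc (2 : ℝ) ^ k * a ^ k = (2 * a) ^ k := by rw [mul_pow]
      _ ≤ _ := hY
  calc ((L : ℝ) ^ k)⁻¹ * ((L : ℝ) ^ k)⁻¹ * (2 * (L : ℝ)) ^ (k + 1) * (ρ ^ p * a ^ k)
      = (((L : ℝ) ^ k)⁻¹ * (2 ^ k * a ^ k)) * (2 * (L : ℝ) * ρ ^ p) := by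
        rw [pow_succ, mul_pow]
        field_simp
    _ ≤ 1 * (2 * (L : ℝ) * ρ ^ p) := mul_le_mul_of_nonneg_right key (by positivity)
    _ = 2 * (L : ℝ) * ρ ^ p := one_mul _

theorem root_bound {a C T p : ℝ} (hp : 1 ≤ p) (ha : 0 ≤ a) (hC : 0 ≤ C) (hT : 0 ≤ T)
    (h : a ^ p ≤ C ^ p * T) : a ≤ C * T ^ (1 / p) := by
  have hp0 : 0 < p := by linarith
  have h1 : C ^ p * T = (C * T ^ (1 / p)) ^ p := by
    rw [Real.mul_rpow hC (Real.rpow_nonneg hT _), ← Real.rpow_mul hT, one_div,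
      inv_mul_cancel₀ hp0.ne', Real.rpow_one]
  rw [h1] at h
  exact (Real.rpow_le_rpow_iff ha (mul_nonneg hC (Real.rpow_nonneg hT _)) hp0).mp h

theorem two_le_of_hL (p : ℝ) (hp : 1 ≤ p) (L : ℕ) (hL : 2 * (10 : ℝ) ^ p ≤ L) : 2 ≤ L := by
  have h1 : (1 : ℝ) ≤ (10 : ℝ) ^ p := Real.one_le_rpow (by norm_num) (by linarith)
  have h2 : (2 : ℝ) ≤ (L : ℝ) := by linarith
  exact_mod_cast h2

end Arith

section Main

variable {X : Type*} [Fintype X] [DecidableEq X]

/-- One step of the walk changes the mean of `g` by little. -/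
theorem step_bound (d : X → X → ℝ) (hd0 : ∀ x, d x x = 0) (hsymm : ∀ x y, d x y = d y x)
    (hnn : ∀ x y, 0 ≤ d x y) (htri : ∀ x y z, d x z ≤ d x y + d y z) (S : X → ℕ → Finset X)
    (hcard : ∀ x K, (S x K).card = min K (Fintype.card X))
    (hnear : ∀ x K y z, y ∉ S x K → z ∈ S x K → d x z ≤ d x y)
    (p : ℝ) (hp : 1 ≤ p) (L : ℕ) (hL : 2 * (10 : ℝ) ^ p ≤ L)
    (g : X → ℝ) (hg : ∀ x y, d x y = 0 → g x = g y) (i j c : X) (hc : c = i ∨ c = j) (k : ℕ)
    (hnot : ∀ k' < k + 1, NotLarge d S L i j k') :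
    |∑ x, mu S L c (k + 1) x * g x - ∑ x, mu S L c k x * g x| ^ p ≤
      (4 * d i j * (1 / 2) ^ k) ^ p *
        ∑ x, ∑ y, phi S L x y * (|g x - g y| ^ p / d x y ^ p) := by
  have hL2 : 2 ≤ L := two_le_of_hL p hp L hL
  have hL0 : (0 : ℝ) < L := by exact_mod_cast (by omega : 0 < L)
  obtain ⟨m0, m1, ms, mb⟩ := mu_props d hd0 hsymm hnn htri S hcard hnear L (by omega) i j c hc k
    (fun k' hk' => hnot k' (Nat.lt_succ_of_lt hk'))
  obtain ⟨x0, y0, hx0, hy0, hy0S⟩ := hnot k (Nat.lt_succ_self k)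
  obtain ⟨hK, hrad⟩ := claim1 d hsymm htri S hcard hnear (L ^ (k + 1)) i j (sig (d i j) k)
    x0 y0 hx0 hy0 hy0S
  have hcardK : ∀ x, ((S x (L ^ (k + 1))).card : ℝ) = (L : ℝ) ^ (k + 1) := fun x => by
    rw [hcard, min_eq_left hK.le]
    push_cast
    rfl
  have hpos : (0 : ℝ) < (L : ℝ) ^ (k + 1) := by positivity
  have hposk : (0 : ℝ) < (L : ℝ) ^ k := by positivity
  have hkX : k < Fintype.card X := by
    have : k + 1 < L ^ (k + 1) := Nat.lt_pow_self (by omega)
    omega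
  have hnear_c : ∀ x, d c x ≤ sig (d i j) k → d i x ≤ sig (d i j) k ∨ d j x ≤ sig (d i j) k := by
    intro x hx
    rcases hc with h | h
    · left; rw [h] at hx; exact hx
    · right; rw [h] at hx; exact hx
  -- the transport plan
  obtain ⟨w, hwdef⟩ : ∃ w : X → X → ℝ, w = fun x y =>
      mu S L c k x * (if y ∈ S x (L ^ (k + 1)) then ((L : ℝ) ^ (k + 1))⁻¹ else 0) := ⟨_, rfl⟩
  have hrow : ∀ x, ∑ y, w x y = mu S L c k x := by
    intro x
    rw [hwdef]
    simp only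
    rw [← Finset.mul_sum, sum_ite_mem_inv, hcardK, mul_inv_cancel₀ hpos.ne', mul_one]
  have hw0 : ∀ x y, 0 ≤ w x y := by
    intro x y
    rw [hwdef]
    simp only
    refine mul_nonneg (m0 x) ?_
    split_ifs
    · positivity
    · exact le_refl _
  have hw1 : ∑ x, ∑ y, w x y = 1 := by
    rw [Finset.sum_congr rfl (fun x _ => hrow x), m1]
  have hid : ∑ x, mu S L c (k + 1) x * g x - ∑ x, mu S L c k x * g x =
      -∑ x, ∑ y, w x y * (g x - g y) := by
    have h1 : ∑ x, mu S L c (k + 1) x * g x = ∑ x, ∑ y, w x y * g y := by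
      rw [Finset.sum_comm]
      refine Finset.sum_congr rfl fun y _ => ?_
      rw [← Finset.sum_mul]
      congr 1
      rw [hwdef]
      rfl
    have h2 : ∑ x, mu S L c k x * g x = ∑ x, ∑ y, w x y * g x := by
      refine Finset.sum_congr rfl fun x _ => ?_
      rw [← Finset.sum_mul, hrow]
    rw [h1, h2, ← Finset.sum_sub_distrib, ← Finset.sum_neg_distrib]
    refine Finset.sum_congr rfl fun x _ => ?_
    rw [← Finset.sum_sub_distrib, ← Finset.sum_neg_distrib]
    refine Finset.sum_congr rfl fun y _ => ?_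
    ring
  rw [hid, abs_neg]
  have hρ : 0 ≤ d i j := hnn i j
  have hA : (0 : ℝ) ≤ ((L : ℝ) ^ k)⁻¹ * 2 ^ (k + 1) := by positivity
  have hD : (0 : ℝ) ≤ 2 * d i j * 5 ^ k := by positivity
  have hT : 0 ≤ ∑ x, ∑ y, phi S L x y * (|g x - g y| ^ p / d x y ^ p) :=
    Finset.sum_nonneg fun x _ => Finset.sum_nonneg fun y _ =>
      mul_nonneg (phi_nonneg S L x y)
        (div_nonneg (Real.rpow_nonneg (abs_nonneg _) p) (Real.rpow_nonneg (hnn x y) p))
  have hpb := pair_bound d hnn (phi S L) (phi_nonneg S L) g hg hp w hw0 hw1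
    (((L : ℝ) ^ k)⁻¹ * 2 ^ (k + 1)) (2 * d i j * 5 ^ k) hA hD (by
      intro x y hxy
      have hx1 : mu S L c k x ≠ 0 := fun h => hxy (by rw [hwdef]; simp only; rw [h, zero_mul])
      have hx2 : y ∈ S x (L ^ (k + 1)) := by
        by_contra h
        exact hxy (by rw [hwdef]; simp only; rw [if_neg h, mul_zero])
      refine ⟨?_, ?_⟩
      · have h2 := hrad x (hnear_c x (ms x hx1)) y hx2
        rw [four_sig] at h2
        exact h2
      · have h3 := phi_ge S L x y k hkX hx2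
        have h4 : w x y = mu S L c k x * ((L : ℝ) ^ (k + 1))⁻¹ := by
          rw [hwdef]; simp only; rw [if_pos hx2]
        have h5 : ((L : ℝ) ^ (k + 1))⁻¹ = 2 ^ (k + 1) * (1 / (2 * (L : ℝ))) ^ (k + 1) := by
          rw [← mul_pow, ← inv_pow]
          congr 1
          field_simp
        rw [h4]
        calc mu S L c k x * ((L : ℝ) ^ (k + 1))⁻¹
            ≤ ((L : ℝ) ^ k)⁻¹ * ((L : ℝ) ^ (k + 1))⁻¹ :=
              mul_le_mul_of_nonneg_right (mb x) (by positivity)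
          _ = ((L : ℝ) ^ k)⁻¹ * 2 ^ (k + 1) * (1 / (2 * (L : ℝ))) ^ (k + 1) := by
              rw [h5]; ring
          _ ≤ ((L : ℝ) ^ k)⁻¹ * 2 ^ (k + 1) * phi S L x y :=
              mul_le_mul_of_nonneg_left h3 hA)
  exact hpb.trans (mul_le_mul_of_nonneg_right (arith_step p hp L hL (d i j) hρ k) hT)

/-- At the first large level the two walks can be coupled cheaply. -/
theorem meet_bound (d : X → X → ℝ) (hd0 : ∀ x, d x x = 0) (hsymm : ∀ x y, d x y = d y x)
    (hnn : ∀ x y, 0 ≤ d x y) (htri : ∀ x y z, d x z ≤ d x y + d y z) (S : X → ℕ → Finset X)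
    (hcard : ∀ x K, (S x K).card = min K (Fintype.card X))
    (hnear : ∀ x K y z, y ∉ S x K → z ∈ S x K → d x z ≤ d x y)
    (p : ℝ) (hp : 1 ≤ p) (L : ℕ) (hL : 2 * (10 : ℝ) ^ p ≤ L)
    (g : X → ℝ) (hg : ∀ x y, d x y = 0 → g x = g y) (i j : X) (k : ℕ)
    (hnot : ∀ k' < k, NotLarge d S L i j k') (hlarge : ¬ NotLarge d S L i j k) :
    |∑ x, mu S L i k x * g x - ∑ x, mu S L j k x * g x| ^ p ≤
      ((2 * (L : ℝ)) ^ (1 / p) * d i j) ^ p *
        ∑ x, ∑ y, phi S L x y * (|g x - g y| ^ p / d x y ^ p) := by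
  have hL2 : 2 ≤ L := two_le_of_hL p hp L hL
  have hL0 : (0 : ℝ) < L := by exact_mod_cast (by omega : 0 < L)
  obtain ⟨m0, m1, ms, mb⟩ := mu_props d hd0 hsymm hnn htri S hcard hnear L (by omega) i j i
    (Or.inl rfl) k hnot
  obtain ⟨n0, n1, ns, nb⟩ := mu_props d hd0 hsymm hnn htri S hcard hnear L (by omega) i j j
    (Or.inr rfl) k hnot
  have hposk : (0 : ℝ) < (L : ℝ) ^ k := by positivity
  have hkX : k < Fintype.card X := by
    rcases Nat.eq_zero_or_pos k with h | h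
    · rw [h]
      exact Fintype.card_pos_iff.mpr ⟨i⟩
    · obtain ⟨x0, y0, hx0, hy0, hy0S⟩ := hnot (k - 1) (by omega)
      obtain ⟨hK, -⟩ := claim1 d hsymm htri S hcard hnear (L ^ (k - 1 + 1)) i j
        (sig (d i j) (k - 1)) x0 y0 hx0 hy0 hy0S
      have h1 : k - 1 + 1 = k := by omega
      rw [h1] at hK
      have : k < L ^ k := Nat.lt_pow_self (by omega)
      omega
  obtain ⟨w, hwdef⟩ : ∃ w : X → X → ℝ, w = fun x y => mu S L i k x * mu S L j k y := ⟨_, rfl⟩
  have hw0 : ∀ x y, 0 ≤ w x y := by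
    intro x y
    rw [hwdef]
    exact mul_nonneg (m0 x) (n0 y)
  have hw1 : ∑ x, ∑ y, w x y = 1 := by
    rw [hwdef]
    simp only
    rw [← Finset.sum_mul_sum, m1, n1, mul_one]
  have hid : ∑ x, mu S L i k x * g x - ∑ x, mu S L j k x * g x =
      ∑ x, ∑ y, w x y * (g x - g y) := by
    have h1 : ∑ x, mu S L i k x * g x = ∑ x, ∑ y, w x y * g x := by
      refine Finset.sum_congr rfl fun x _ => ?_
      rw [← Finset.sum_mul, hwdef]
      simp only
      rw [← Finset.mul_sum, n1, mul_one]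
    have h2 : ∑ y, mu S L j k y * g y = ∑ x, ∑ y, w x y * g y := by
      rw [hwdef]
      simp only
      have : ∀ x, ∑ y, mu S L i k x * mu S L j k y * g y =
          mu S L i k x * ∑ y, mu S L j k y * g y := by
        intro x
        rw [Finset.mul_sum]
        refine Finset.sum_congr rfl fun y _ => ?_
        ring
      rw [Finset.sum_congr rfl (fun x _ => this x), ← Finset.sum_mul, m1, one_mul]
    rw [h1, h2, ← Finset.sum_sub_distrib]
    refine Finset.sum_congr rfl fun x _ => ?_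
    rw [← Finset.sum_sub_distrib]
    refine Finset.sum_congr rfl fun y _ => ?_
    ring
  rw [hid]
  have hρ : 0 ≤ d i j := hnn i j
  have hA : (0 : ℝ) ≤ ((L : ℝ) ^ k)⁻¹ * ((L : ℝ) ^ k)⁻¹ * (2 * (L : ℝ)) ^ (k + 1) := by positivity
  have hD : (0 : ℝ) ≤ d i j * 5 ^ k := by positivity
  have hT : 0 ≤ ∑ x, ∑ y, phi S L x y * (|g x - g y| ^ p / d x y ^ p) :=
    Finset.sum_nonneg fun x _ => Finset.sum_nonneg fun y _ =>
      mul_nonneg (phi_nonneg S L x y)
        (div_nonneg (Real.rpow_nonneg (abs_nonneg _) p) (Real.rpow_nonneg (hnn x y) p))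
  have hpb := pair_bound d hnn (phi S L) (phi_nonneg S L) g hg hp w hw0 hw1
    (((L : ℝ) ^ k)⁻¹ * ((L : ℝ) ^ k)⁻¹ * (2 * (L : ℝ)) ^ (k + 1)) (d i j * 5 ^ k) hA hD (by
      intro x y hxy
      have hx1 : mu S L i k x ≠ 0 := fun h => hxy (by rw [hwdef]; simp only; rw [h, zero_mul])
      have hy1 : mu S L j k y ≠ 0 := fun h => hxy (by rw [hwdef]; simp only; rw [h, mul_zero])
      have hdx := ms x hx1
      have hdy := ns y hy1
      have hx2 : y ∈ S x (L ^ (k + 1)) := by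
        by_contra h
        exact hlarge ⟨x, y, hdx, hdy, h⟩
      refine ⟨?_, ?_⟩
      · have h1 := htri x i y
        have h2 := htri i j y
        have h3 := hsymm x i
        have h4 := two_sig (d i j) k
        linarith
      · have h3 := phi_ge S L x y k hkX hx2
        have h5 : (2 * (L : ℝ)) ^ (k + 1) * (1 / (2 * (L : ℝ))) ^ (k + 1) = 1 := by
          rw [← mul_pow]
          have : 2 * (L : ℝ) * (1 / (2 * (L : ℝ))) = 1 := by field_simp
          rw [this, one_pow]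
        have h4 : w x y = mu S L i k x * mu S L j k y := by rw [hwdef]
        rw [h4]
        calc mu S L i k x * mu S L j k y
            ≤ ((L : ℝ) ^ k)⁻¹ * ((L : ℝ) ^ k)⁻¹ :=
              mul_le_mul (mb x) (nb y) (n0 y) (by positivity)
          _ = ((L : ℝ) ^ k)⁻¹ * ((L : ℝ) ^ k)⁻¹ * (2 * (L : ℝ)) ^ (k + 1) *
                (1 / (2 * (L : ℝ))) ^ (k + 1) := by
              rw [mul_assoc (((L : ℝ) ^ k)⁻¹ * ((L : ℝ) ^ k)⁻¹), h5, mul_one]
          _ ≤ ((L : ℝ) ^ k)⁻¹ * ((L : ℝ) ^ k)⁻¹ * (2 * (L : ℝ)) ^ (k + 1) * phi S L x y :=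
              mul_le_mul_of_nonneg_left h3 hA)
  exact hpb.trans (mul_le_mul_of_nonneg_right (arith_meet p hp L hL (d i j) hρ k) hT)

/-- **Nearest-neighbour weights dominate all pair ratios.** For a finite pseudometric space and
`p ≥ 1` there are nonnegative weights `φ` on ordered pairs, with every row sum at most one, such
that every `g` that is constant on pairs at distance zero satisfies
`|g i - g j|^p ≤ C^p * d i j ^p * ∑ φ x y * (|g x - g y|^p / d x y ^p)` for all `i j`. -/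
theorem key_ineq (d : X → X → ℝ) (hd0 : ∀ x, d x x = 0) (hsymm : ∀ x y, d x y = d y x)
    (hnn : ∀ x y, 0 ≤ d x y) (htri : ∀ x y z, d x z ≤ d x y + d y z)
    (p : ℝ) (hp : 1 ≤ p) (L : ℕ) (hL : 2 * (10 : ℝ) ^ p ≤ L) :
    ∃ φ : X → X → ℝ, (∀ x y, 0 ≤ φ x y) ∧ (∀ x, ∑ y, φ x y ≤ 1) ∧
      ∀ g : X → ℝ, (∀ x y, d x y = 0 → g x = g y) → ∀ i j,
        |g i - g j| ^ p ≤ (16 + (2 * (L : ℝ)) ^ (1 / p)) ^ p * d i j ^ p *
          ∑ x, ∑ y, φ x y * (|g x - g y| ^ p / d x y ^ p) := by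
  obtain ⟨S, hcard, hnear⟩ := exists_nn d
  have hL2 : 2 ≤ L := two_le_of_hL p hp L hL
  have hL0 : (0 : ℝ) < L := by exact_mod_cast (by omega : 0 < L)
  refine ⟨phi S L, phi_nonneg S L, phi_row_sum S hcard L (by omega), ?_⟩
  intro g hg i j
  obtain ⟨T, hTdef⟩ : ∃ T : ℝ, T = ∑ x, ∑ y, phi S L x y * (|g x - g y| ^ p / d x y ^ p) :=
    ⟨_, rfl⟩
  rw [← hTdef]
  have hT : 0 ≤ T := by
    rw [hTdef]
    exact Finset.sum_nonneg fun x _ => Finset.sum_nonneg fun y _ =>
      mul_nonneg (phi_nonneg S L x y)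
        (div_nonneg (Real.rpow_nonneg (abs_nonneg _) p) (Real.rpow_nonneg (hnn x y) p))
  have hτ : 0 ≤ T ^ (1 / p) := Real.rpow_nonneg hT _
  have hρ : 0 ≤ d i j := hnn i j
  have hp0 : 0 < p := by linarith
  -- a large level exists
  have hex : ∃ k, ¬ NotLarge d S L i j k := by
    refine ⟨Fintype.card X, ?_⟩
    rintro ⟨x0, y0, -, -, h⟩
    have h1 : Fintype.card X ≤ L ^ (Fintype.card X + 1) := by
      have : Fintype.card X + 1 < L ^ (Fintype.card X + 1) := Nat.lt_pow_self (by omega)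
      omega
    have h2 : (S x0 (L ^ (Fintype.card X + 1))).card = Fintype.card X := by
      rw [hcard, min_eq_right h1]
    exact h ((Finset.card_eq_iff_eq_univ _).mp h2 ▸ Finset.mem_univ y0)
  classical
  obtain ⟨ks, hks, hmin⟩ : ∃ ks, ¬ NotLarge d S L i j ks ∧ ∀ k' < ks, NotLarge d S L i j k' :=
    ⟨Nat.find hex, Nat.find_spec hex, fun k' hk' => not_not.mp (Nat.find_min hex hk')⟩
  -- telescoping along the walk
  have htel : ∀ c, (c = i ∨ c = j) → ∀ k, k ≤ ks →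
      |g c - ∑ x, mu S L c k x * g x| ≤
        ∑ k' ∈ Finset.range k, 4 * d i j * (1 / 2) ^ k' * T ^ (1 / p) := by
    intro c hc k
    induction k with
    | zero =>
      intro _
      simp [mu]
    | succ k ih =>
      intro hk
      have ih' := ih (by omega)
      have hstep := step_bound d hd0 hsymm hnn htri S hcard hnear p hp L hL g hg i j c hc k
        (fun k' hk' => hmin k' (by omega))
      rw [← hTdef] at hstep
      have hroot := root_bound hp (abs_nonneg _)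
        (mul_nonneg (mul_nonneg (by norm_num) hρ) (by positivity)) hT hstep
      rw [Finset.sum_range_succ]
      have h3 := abs_sub_le (g c) (∑ x, mu S L c k x * g x) (∑ x, mu S L c (k + 1) x * g x)
      rw [abs_sub_comm (∑ x, mu S L c k x * g x)] at h3
      linarith
  have hgeo : ∀ k, ∑ k' ∈ Finset.range k, 4 * d i j * (1 / 2) ^ k' * T ^ (1 / p) ≤
      8 * d i j * T ^ (1 / p) := by
    intro k
    have h1 : ∑ k' ∈ Finset.range k, 4 * d i j * (1 / 2 : ℝ) ^ k' * T ^ (1 / p) =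
        4 * d i j * T ^ (1 / p) * ∑ k' ∈ Finset.range k, (1 / 2 : ℝ) ^ k' := by
      rw [Finset.mul_sum]
      refine Finset.sum_congr rfl fun k' _ => by ring
    rw [h1, geom_half]
    have h2 : (0 : ℝ) ≤ (1 / 2) ^ k := by positivity
    have h3 : 0 ≤ 4 * d i j * T ^ (1 / p) := mul_nonneg (mul_nonneg (by norm_num) hρ) hτ
    nlinarith
  have h1 := (htel i (Or.inl rfl) ks le_rfl).trans (hgeo ks)
  have h2 := (htel j (Or.inr rfl) ks le_rfl).trans (hgeo ks)
  have hmeet := meet_bound d hd0 hsymm hnn htri S hcard hnear p hp L hL g hg i j ks hmin hks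
  rw [← hTdef] at hmeet
  have hM : 0 ≤ (2 * (L : ℝ)) ^ (1 / p) := Real.rpow_nonneg (by positivity) _
  have h3 := root_bound hp (abs_nonneg _) (mul_nonneg hM hρ) hT hmeet
  have hfin : |g i - g j| ≤ (16 + (2 * (L : ℝ)) ^ (1 / p)) * d i j * T ^ (1 / p) := by
    have ha := abs_sub_le (g i) (∑ x, mu S L i ks x * g x) (g j)
    have hb := abs_sub_le (∑ x, mu S L i ks x * g x) (∑ x, mu S L j ks x * g x) (g j)
    rw [abs_sub_comm (∑ x, mu S L j ks x * g x) (g j)] at hb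
    have hc : (16 + (2 * (L : ℝ)) ^ (1 / p)) * d i j * T ^ (1 / p) =
        8 * d i j * T ^ (1 / p) + (2 * (L : ℝ)) ^ (1 / p) * d i j * T ^ (1 / p) +
          8 * d i j * T ^ (1 / p) := by ring
    rw [hc]
    linarith
  calc |g i - g j| ^ p
      ≤ ((16 + (2 * (L : ℝ)) ^ (1 / p)) * d i j * T ^ (1 / p)) ^ p :=
        Real.rpow_le_rpow (abs_nonneg _) hfin hp0.le
    _ = (16 + (2 * (L : ℝ)) ^ (1 / p)) ^ p * d i j ^ p * T := by
        rw [Real.mul_rpow (mul_nonneg (by positivity) hρ) hτ,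
          Real.mul_rpow (by positivity) hρ, ← Real.rpow_mul hT, one_div,
          inv_mul_cancel₀ hp0.ne', Real.rpow_one]

end Main

end Vale.Agent.Lib.P249.H59
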