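import Vale.Agent.Lib.P249.helper59.KNN

/-!
# P249: the total pair-sensitivity of `n` points of `ℓ_q^m` is at most `76^q * n`
-/

namespace Vale.Agent.Lib.P249.H59

open Finset

theorem const_le (q : ℝ) (hq : 1 ≤ q) :
    16 + (2 * ((⌈2 * (10 : ℝ) ^ q⌉₊ : ℕ) : ℝ)) ^ (1 / q) ≤ 76 := by
  have hq0 : 0 < q := by linarith
  have h10 : (1 : ℝ) ≤ (10 : ℝ) ^ q := Real.one_le_rpow (by norm_num) hq0.le
  have h6 : (6 : ℝ) ≤ (6 : ℝ) ^ q := by
    calc (6 : ℝ) = (6 : ℝ) ^ (1 : ℝ) := (Real.rpow_one 6).symm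
      _ ≤ (6 : ℝ) ^ q := Real.rpow_le_rpow_of_exponent_le (by norm_num) hq
  have hceil : ((⌈2 * (10 : ℝ) ^ q⌉₊ : ℕ) : ℝ) ≤ 2 * (10 : ℝ) ^ q + 1 :=
    (Nat.ceil_lt_add_one (by positivity)).le
  have h60 : (6 : ℝ) ^ q * (10 : ℝ) ^ q = (60 : ℝ) ^ q := by
    rw [← Real.mul_rpow (by norm_num) (by norm_num)]
    norm_num
  have h2L : 2 * ((⌈2 * (10 : ℝ) ^ q⌉₊ : ℕ) : ℝ) ≤ (60 : ℝ) ^ q := by
    rw [← h60]
    nlinarith
  have h1 : (2 * ((⌈2 * (10 : ℝ) ^ q⌉₊ : ℕ) : ℝ)) ^ (1 / q) ≤ ((60 : ℝ) ^ q) ^ (1 / q) :=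
    Real.rpow_le_rpow (by positivity) h2L (by positivity)
  have h2 : ((60 : ℝ) ^ q) ^ (1 / q) = 60 := by
    rw [← Real.rpow_mul (by norm_num), mul_one_div_cancel hq0.ne', Real.rpow_one]
  rw [h2] at h1
  linarith

/-- **Pair-sensitivity bound via nearest-neighbour weights**: the total is at most `76^q * n`,
with no logarithm. -/
theorem sens_knn (q : ℝ) (hq : 1 ≤ q) :
    ∀ (n m : ℕ), ∀ x : Fin n → Fin m → ℝ,
      ∃ s : Fin m → ℝ, (∀ k, 0 ≤ s k) ∧
        (∀ k a b, |x a k - x b k| ^ q ≤ s k * ∑ k', |x a k' - x b k'| ^ q) ∧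
        ∑ k, s k ≤ (76 : ℝ) ^ q * n := by
  intro n m x
  have hq0 : 0 < q := by linarith
  obtain ⟨v, hv⟩ : ∃ v : Fin n → Fin n → ℝ, v = fun a b => ∑ k', |x a k' - x b k'| ^ q :=
    ⟨_, rfl⟩
  have hv0 : ∀ a b, 0 ≤ v a b := fun a b => by
    rw [hv]
    exact Finset.sum_nonneg fun k _ => Real.rpow_nonneg (abs_nonneg _) _
  obtain ⟨d, hd⟩ : ∃ d : Fin n → Fin n → ℝ, d = fun a b => v a b ^ (1 / q) := ⟨_, rfl⟩
  have hdq : ∀ a b, d a b ^ q = v a b := fun a b => by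
    rw [hd]
    simp only
    rw [← Real.rpow_mul (hv0 a b), one_div, inv_mul_cancel₀ hq0.ne', Real.rpow_one]
  have hd0 : ∀ a, d a a = 0 := fun a => by
    rw [hd, hv]
    simp only [sub_self, abs_zero]
    rw [Real.zero_rpow hq0.ne']
    simp only [Finset.sum_const_zero]
    exact Real.zero_rpow (by positivity)
  have hsymm : ∀ a b, d a b = d b a := fun a b => by
    rw [hd, hv]
    simp only
    congr 1
    exact Finset.sum_congr rfl fun k _ => by rw [abs_sub_comm]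
  have hnn : ∀ a b, 0 ≤ d a b := fun a b => by
    rw [hd]
    exact Real.rpow_nonneg (hv0 a b) _
  have htri : ∀ a b c, d a c ≤ d a b + d b c := fun a b c => by
    have h := Real.Lp_add_le (Finset.univ : Finset (Fin m)) (fun k => x a k - x b k)
      (fun k => x b k - x c k) hq
    simp only [sub_add_sub_cancel] at h
    rw [hd, hv]
    exact h
  have hzero : ∀ a b, d a b = 0 → ∀ k, x a k = x b k := by
    intro a b h k
    have h1 : v a b = 0 := by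
      have := hdq a b
      rw [h, Real.zero_rpow hq0.ne'] at this
      exact this.symm
    rw [hv] at h1
    simp only at h1
    have h2 := (Finset.sum_eq_zero_iff_of_nonneg
      (fun k _ => Real.rpow_nonneg (abs_nonneg (x a k - x b k)) q)).mp h1 k (Finset.mem_univ k)
    have h3 : |x a k - x b k| = 0 := by
      by_contra hne
      have : 0 < |x a k - x b k| ^ q :=
        Real.rpow_pos_of_pos (lt_of_le_of_ne (abs_nonneg _) (Ne.symm hne)) q
      linarith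
    have h4 := abs_eq_zero.mp h3
    linarith
  obtain ⟨φ, hφ0, hφrow, hkey⟩ := key_ineq d hd0 hsymm hnn htri q hq ⌈2 * (10 : ℝ) ^ q⌉₊
    (Nat.le_ceil _)
  have hC := const_le q hq
  have hC0 : 0 ≤ 16 + (2 * ((⌈2 * (10 : ℝ) ^ q⌉₊ : ℕ) : ℝ)) ^ (1 / q) := by positivity
  have hCq : (16 + (2 * ((⌈2 * (10 : ℝ) ^ q⌉₊ : ℕ) : ℝ)) ^ (1 / q)) ^ q ≤ (76 : ℝ) ^ q :=
    Real.rpow_le_rpow hC0 hC hq0.le
  have h76 : (0 : ℝ) < (76 : ℝ) ^ q := Real.rpow_pos_of_pos (by norm_num) q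
  have hT0 : ∀ k, 0 ≤ ∑ a, ∑ b, φ a b * (|x a k - x b k| ^ q / d a b ^ q) := fun k =>
    Finset.sum_nonneg fun a _ => Finset.sum_nonneg fun b _ =>
      mul_nonneg (hφ0 a b)
        (div_nonneg (Real.rpow_nonneg (abs_nonneg _) q) (Real.rpow_nonneg (hnn a b) q))
  refine ⟨fun k => (76 : ℝ) ^ q * ∑ a, ∑ b, φ a b * (|x a k - x b k| ^ q / d a b ^ q),
    fun k => mul_nonneg h76.le (hT0 k), ?_, ?_⟩
  · intro k a b
    have h := hkey (fun a => x a k) (fun a b hab => hzero a b hab k) a b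
    rw [hdq] at h
    have hvab : v a b = ∑ k', |x a k' - x b k'| ^ q := by rw [hv]
    rw [hvab] at h
    refine h.trans ?_
    have h1 : (16 + (2 * ((⌈2 * (10 : ℝ) ^ q⌉₊ : ℕ) : ℝ)) ^ (1 / q)) ^ q *
        (∑ k', |x a k' - x b k'| ^ q) ≤ (76 : ℝ) ^ q * ∑ k', |x a k' - x b k'| ^ q :=
      mul_le_mul_of_nonneg_right hCq (hvab ▸ hv0 a b)
    calc (16 + (2 * ((⌈2 * (10 : ℝ) ^ q⌉₊ : ℕ) : ℝ)) ^ (1 / q)) ^ q *
          (∑ k', |x a k' - x b k'| ^ q) *
          ∑ a, ∑ b, φ a b * (|x a k - x b k| ^ q / d a b ^ q)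
        ≤ (76 : ℝ) ^ q * (∑ k', |x a k' - x b k'| ^ q) *
          ∑ a, ∑ b, φ a b * (|x a k - x b k| ^ q / d a b ^ q) :=
          mul_le_mul_of_nonneg_right h1 (hT0 k)
      _ = (76 : ℝ) ^ q * (∑ a, ∑ b, φ a b * (|x a k - x b k| ^ q / d a b ^ q)) *
          ∑ k', |x a k' - x b k'| ^ q := by ring
  · rw [← Finset.mul_sum]
    refine mul_le_mul_of_nonneg_left ?_ h76.le
    calc ∑ k, ∑ a, ∑ b, φ a b * (|x a k - x b k| ^ q / d a b ^ q)
        = ∑ a, ∑ b, φ a b * (v a b / d a b ^ q) := by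
          rw [Finset.sum_comm]
          refine Finset.sum_congr rfl fun a _ => ?_
          rw [Finset.sum_comm]
          refine Finset.sum_congr rfl fun b _ => ?_
          rw [← Finset.mul_sum, ← Finset.sum_div]
          rw [hv]
      _ ≤ ∑ a, ∑ b, φ a b * 1 := by
          refine Finset.sum_le_sum fun a _ => Finset.sum_le_sum fun b _ => ?_
          refine mul_le_mul_of_nonneg_left ?_ (hφ0 a b)
          rw [hdq]
          exact div_self_le_one _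
      _ ≤ ∑ a : Fin n, (1 : ℝ) := by
          refine Finset.sum_le_sum fun a _ => ?_
          simp only [mul_one]
          exact hφrow a
      _ = n := by simp

end Vale.Agent.Lib.P249.H59
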